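import Crest.Agent.R341.Ent
import Crest.Prelude.Def_AmpDamp

-- ▼ part R341/Kraus
section

set_option autoImplicit false

namespace Crest.Agent.R341

open Crest.Quantum Crest.MathPhysics.AmpDamp Matrix
open scoped ComplexOrder

set_option linter.unusedSectionVars false

variable {d e : Type*} [Fintype d] [Fintype e] [DecidableEq d] [DecidableEq e]

/-- complete positivity (any auxiliary index type) from a Kraus form -/
theorem blockwise_posSemidef_of_kraus {J : Type*} [Fintype J] (K : J → Matrix e d ℂ)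
    {Ψ : Matrix d d ℂ → Matrix e e ℂ} (h : ∀ M, Ψ M = ∑ j, K j * M * (K j)ᴴ)
    {k : Type*} [Fintype k] [DecidableEq k] {M : Matrix (k × d) (k × d) ℂ} (hM : M.PosSemidef) :
    (blockwise Ψ M).PosSemidef := by
  have h1 : blockwise Ψ M = ∑ j, (kroneckerMap (· * ·) (1 : Matrix k k ℂ) (K j)) * M *
      (kroneckerMap (· * ·) (1 : Matrix k k ℂ) (K j))ᴴ := by
    ext ⟨s, i⟩ ⟨t, l⟩
    simp only [blockwise, block, Matrix.of_apply, h, Matrix.sum_apply]
    refine Finset.sum_congr rfl fun j _ => ?_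
    simp only [Matrix.mul_apply, Matrix.kroneckerMap_apply, Fintype.sum_prod_type,
      Matrix.conjTranspose_apply, Matrix.one_apply, Matrix.of_apply]
    simp only [Finset.sum_mul, ite_mul, one_mul, zero_mul, Finset.sum_ite_irrel,
      Finset.sum_const_zero, Finset.sum_ite_eq, Finset.mem_univ, if_true, apply_ite star, star_zero,
      mul_ite, mul_zero]
  rw [h1]
  exact Matrix.posSemidef_sum _ fun j _ => hM.mul_mul_conjTranspose_same _

theorem cp_of_kraus {J : Type*} [Fintype J] (K : J → Matrix e d ℂ)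
    {Ψ : Matrix d d ℂ → Matrix e e ℂ} (h : ∀ M, Ψ M = ∑ j, K j * M * (K j)ᴴ) :
    IsCompletelyPositive Ψ :=
  fun _ _ hM => blockwise_posSemidef_of_kraus K h hM

/-- Kraus operators of the generalized amplitude damping channel -/
noncomputable def gadK (γ ν : ℝ) (j : Fin 4) : Matrix Bool Bool ℂ :=
  Matrix.of fun s t =>
    if j = 0 then
      (if s = t then (if s then ((Real.sqrt (1 - ν) * Real.sqrt (1 - γ) : ℝ) : ℂ)
        else ((Real.sqrt (1 - ν) : ℝ) : ℂ)) else 0)
    else if j = 1 then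
      (if s = false ∧ t = true then ((Real.sqrt (1 - ν) * Real.sqrt γ : ℝ) : ℂ) else 0)
    else if j = 2 then
      (if s = t then (if s then ((Real.sqrt ν : ℝ) : ℂ)
        else ((Real.sqrt ν * Real.sqrt (1 - γ) : ℝ) : ℂ)) else 0)
    else
      (if s = true ∧ t = false then ((Real.sqrt ν * Real.sqrt γ : ℝ) : ℂ) else 0)

theorem gadMap_kraus {γ ν : ℝ} (hγ : γ ∈ Set.Icc (0 : ℝ) 1) (hν : ν ∈ Set.Icc (0 : ℝ) 1)
    (M : Matrix Bool Bool ℂ) :
    gadMap γ ν M = ∑ j, gadK γ ν j * M * (gadK γ ν j)ᴴ := by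
  have a1 : (((Real.sqrt (1 - ν) : ℝ) : ℂ)) * ((Real.sqrt (1 - ν) : ℝ) : ℂ) = 1 - ν := by
    rw [← Complex.ofReal_mul, Real.mul_self_sqrt (by linarith [hν.2])]; simp
  have a2 : (((Real.sqrt ν : ℝ) : ℂ)) * ((Real.sqrt ν : ℝ) : ℂ) = ν := by
    rw [← Complex.ofReal_mul, Real.mul_self_sqrt hν.1]
  have a3 : (((Real.sqrt (1 - γ) : ℝ) : ℂ)) * ((Real.sqrt (1 - γ) : ℝ) : ℂ) = 1 - γ := by
    rw [← Complex.ofReal_mul, Real.mul_self_sqrt (by linarith [hγ.2])]; simp
  have a4 : (((Real.sqrt γ : ℝ) : ℂ)) * ((Real.sqrt γ : ℝ) : ℂ) = γ := by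
    rw [← Complex.ofReal_mul, Real.mul_self_sqrt hγ.1]
  ext s t
  rw [Matrix.sum_apply]
  cases s <;> cases t <;>
    simp [gadMap, gadK, Matrix.mul_apply, Fin.sum_univ_four]
  · linear_combination (-(γ : ℂ) * M true true) * a1 + (-M false false) * a1
      - (Real.sqrt (1 - ν) * Real.sqrt (1 - ν)) * M true true * a4 - (1-γ) * M false false * a2
      - (Real.sqrt ν * Real.sqrt ν) * M false false * a3
  · linear_combination (-(Real.sqrt (1 - γ)) * M false true) * a1 + (-(Real.sqrt (1 - γ)) * M false true) * a2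
  · linear_combination (-(Real.sqrt (1 - γ)) * M true false) * a1 + (-(Real.sqrt (1 - γ)) * M true false) * a2
  · linear_combination (-(1 - (γ : ℂ)) * M true true) * a1 + (-M true true) * a2
      - (Real.sqrt (1 - ν) * Real.sqrt (1 - ν)) * M true true * a3 - (γ) * M false false * a2
      - (Real.sqrt ν * Real.sqrt ν) * M false false * a4

end Crest.Agent.R341
end

-- ▼ part R341/GlueA

set_option autoImplicit false

namespace Crest.Agent.R341

open Crest.Quantum Crest.MathPhysics.AmpDamp Matrix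
open scoped ComplexOrder

set_option linter.unusedSectionVars false

variable {d e : Type*} [Fintype d] [Fintype e] [DecidableEq d] [DecidableEq e]

/-- determinant of the output of a pure qubit state with excited population `p` -/
noncomputable def vOut (γ ν p : ℝ) : ℝ := γ * ν * (1 - ν) + γ * (1 - γ) * (p - ν) ^ 2

/-- output entropy of a pure qubit state with excited population `p` -/
noncomputable def fOut (γ ν p : ℝ) : ℝ :=
  Real.binEntropy ((1 + Real.sqrt (1 - 4 * vOut γ ν p)) / 2)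

lemma gadRate_eq (γ ν p : ℝ) :
    gadRate γ ν p = Real.binEntropy ((1 - γ) * p + γ * ν) - fOut γ ν p := rfl

/-- The block matrix `(GAD ⊗ id) [[A, B], [B', C]]` on the index type `e ⊕ e`. -/
noncomputable def gadBlocks (γ ν : ℝ) (A B B' C : Matrix e e ℂ) : Matrix (e ⊕ e) (e ⊕ e) ℂ :=
  Matrix.fromBlocks
    (((1 - γ * ν : ℝ) : ℂ) • A + ((γ * (1 - ν) : ℝ) : ℂ) • C)
    (((Real.sqrt (1 - γ) : ℝ) : ℂ) • B)
    (((Real.sqrt (1 - γ) : ℝ) : ℂ) • B')
    (((γ * ν : ℝ) : ℂ) • A + ((1 - γ + γ * ν : ℝ) : ℂ) • C)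

/-- The key block-matrix entropy inequality, normalised to trace one. -/
def KeyIneq (γ ν : ℝ) : Prop :=
  ∀ (e : Type) [Fintype e] [DecidableEq e] (A B C : Matrix e e ℂ),
    (Matrix.fromBlocks A B Bᴴ C).PosSemidef → A.trace + C.trace = 1 →
      vnEntropy A + vnEntropy C + fOut γ ν C.trace.re - Real.binEntropy C.trace.re ≤
        vnEntropy (gadBlocks γ ν A B Bᴴ C)

lemma gadMap_ff (γ ν : ℝ) (M : Matrix Bool Bool ℂ) :
    gadMap γ ν M false false =
      ((1 - γ * ν : ℝ) : ℂ) * M false false + ((γ * (1 - ν) : ℝ) : ℂ) * M true true := by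
  simp [gadMap]

lemma gadMap_tt (γ ν : ℝ) (M : Matrix Bool Bool ℂ) :
    gadMap γ ν M true true =
      ((γ * ν : ℝ) : ℂ) * M false false + ((1 - γ + γ * ν : ℝ) : ℂ) * M true true := by
  simp [gadMap]

lemma gadMap_ft (γ ν : ℝ) (M : Matrix Bool Bool ℂ) :
    gadMap γ ν M false true = ((Real.sqrt (1 - γ) : ℝ) : ℂ) * M false true := by
  simp [gadMap]

lemma gadMap_tf (γ ν : ℝ) (M : Matrix Bool Bool ℂ) :
    gadMap γ ν M true false = ((Real.sqrt (1 - γ) : ℝ) : ℂ) * M true false := by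
  simp [gadMap]

/-- `GAD ⊗ Ψ` through the four blocks. -/
lemma qubitTensor_gad (γ ν : ℝ) (Ψ : Matrix d d ℂ → Matrix e e ℂ)
    (ρ : Matrix (Bool × d) (Bool × d) ℂ) :
    qubitTensor (gadMap γ ν) Ψ ρ =
      (gadBlocks γ ν (Ψ (block ρ false false)) (Ψ (block ρ false true))
        (Ψ (block ρ true false)) (Ψ (block ρ true true))).submatrix
          (Equiv.boolProdEquivSum e) (Equiv.boolProdEquivSum e) := by
  ext ⟨s, i⟩ ⟨t, j⟩
  cases s <;> cases t <;>
    simp [qubitTensor, gadBlocks, qubitCoeff, gadMap_ff, gadMap_tt, gadMap_ft, gadMap_tf,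
      Equiv.boolProdEquivSum, add_comm]

/-- block positivity with a qubit as the auxiliary system -/
lemma blockwise_bool_posSemidef {Ψ : Matrix d d ℂ → Matrix e e ℂ} (hΨ : IsCompletelyPositive Ψ)
    {ρ : Matrix (Bool × d) (Bool × d) ℂ} (hρ : ρ.PosSemidef) :
    (blockwise Ψ ρ).PosSemidef := by
  have h := hΨ 2 (ρ.submatrix (Prod.map finTwoEquiv id) (Prod.map finTwoEquiv id))
    (hρ.submatrix _)
  have h2 := h.submatrix (Prod.map finTwoEquiv.symm (id : e → e))
  convert h2 using 1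
  ext ⟨s, i⟩ ⟨t, j⟩
  simp only [blockwise, block, Matrix.of_apply, Matrix.submatrix_apply, Prod.map_apply, id_eq,
    Equiv.apply_symm_apply]

/-- output blocks of a CP map form a positive semidefinite `2 × 2` block matrix -/
lemma fromBlocks_cp {Ψ : Matrix d d ℂ → Matrix e e ℂ} (hΨ : IsCompletelyPositive Ψ)
    {ρ : Matrix (Bool × d) (Bool × d) ℂ} (hρ : ρ.PosSemidef) :
    (Matrix.fromBlocks (Ψ (block ρ false false)) (Ψ (block ρ false true))
        (Ψ (block ρ true false)) (Ψ (block ρ true true))).PosSemidef := by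
  have h := (blockwise_bool_posSemidef hΨ hρ).submatrix (Equiv.boolProdEquivSum e).symm
  convert h using 1
  ext i j
  rcases i with i | i <;> rcases j with j | j <;>
    simp [blockwise, Equiv.boolProdEquivSum]

lemma cp_block_conj {Ψ : Matrix d d ℂ → Matrix e e ℂ} (hΨ : IsCompletelyPositive Ψ)
    {ρ : Matrix (Bool × d) (Bool × d) ℂ} (hρ : ρ.PosSemidef) :
    Ψ (block ρ true false) = (Ψ (block ρ false true))ᴴ := by
  have h := (fromBlocks_cp hΨ hρ).1
  rw [Matrix.IsHermitian, Matrix.fromBlocks_conjTranspose, Matrix.fromBlocks_inj] at h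
  exact h.2.2.1.symm

lemma block_posSemidef {ρ : Matrix (Bool × d) (Bool × d) ℂ} (hρ : ρ.PosSemidef) (s : Bool) :
    (block ρ s s).PosSemidef := by
  exact hρ.submatrix (fun i => (s, i))

lemma trace_block_add {ρ : Matrix (Bool × d) (Bool × d) ℂ} :
    (block ρ false false).trace + (block ρ true true).trace = ρ.trace := by
  simp [Matrix.trace, block, Fintype.sum_prod_type, add_comm]

end Crest.Agent.R341
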