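import Crest.Agent.R341.Defs
import Crest.Agent.R341.Ent3
import Crest.Agent.R341.GlueA
import Mathlib

-- ▼ part R341/Power
section

/-! Row 341, task T10: `qubitPower`. -/

namespace Crest.Agent.R341

open Matrix Crest.Quantum Crest.MathPhysics.AmpDamp
open scoped ComplexOrder Kronecker

section
variable {d e κ : Type*} [Fintype d] [DecidableEq d] [Fintype e] [DecidableEq e] [Fintype κ]

/-- Kraus-type maps are channels -/
theorem isChannel_of_kraus (K : κ → Matrix e d ℂ) (hK : ∑ k, (K k)ᴴ * K k = 1) :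
    IsChannel (fun M : Matrix d d ℂ => ∑ k, K k * M * (K k)ᴴ) := by
  refine ⟨⟨?_, ?_⟩, ?_, ?_⟩
  · intro M N
    simp [Matrix.mul_add, Matrix.add_mul, Finset.sum_add_distrib]
  · intro c M
    simp [Finset.smul_sum]
  · intro m M hM
    have h : blockwise (k := Fin m) (fun M : Matrix d d ℂ => ∑ k, K k * M * (K k)ᴴ) M =
        ∑ k, (Matrix.of fun (p : Fin m × e) (q : Fin m × d) => if p.1 = q.1 then K k p.2 q.2 else 0) *
          M * (Matrix.of fun (p : Fin m × e) (q : Fin m × d) =>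
            if p.1 = q.1 then K k p.2 q.2 else 0)ᴴ := by
      ext p q
      simp only [blockwise, block, Matrix.of_apply, Matrix.sum_apply, Matrix.mul_apply,
        Matrix.conjTranspose_apply]
      refine Finset.sum_congr rfl fun k _ => ?_
      rw [Fintype.sum_prod_type]
      rw [Finset.sum_eq_single q.1]
      · refine Finset.sum_congr rfl fun j _ => ?_
        congr 1
        · rw [Fintype.sum_prod_type, Finset.sum_eq_single p.1]
          · simp
          · intro b _ hb
            simp [Ne.symm hb]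
          · simp
        · simp
      · intro b _ hb
        simp [Ne.symm hb]
      · simp
    rw [h]
    refine Matrix.posSemidef_sum _ fun k _ => ?_
    exact hM.mul_mul_conjTranspose_same _
  · intro M
    simp only [Matrix.trace_sum]
    have : ∀ k, (K k * M * (K k)ᴴ).trace = ((K k)ᴴ * K k * M).trace := by
      intro k
      rw [Matrix.trace_mul_comm, Matrix.mul_assoc, ← Matrix.mul_assoc]
    simp only [this, ← Matrix.trace_sum, ← Finset.sum_mul, hK, Matrix.one_mul]

end

/-- the Kraus operators of the generalized amplitude damping map -/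
noncomputable def gadKraus (γ ν : ℝ) : Fin 4 → Matrix Bool Bool ℂ := fun k =>
  Matrix.of fun s t =>
    if k = 0 then
      (if s = false ∧ t = false then ((Real.sqrt (1 - ν) : ℝ) : ℂ)
        else if s = true ∧ t = true then ((Real.sqrt (1 - ν) * Real.sqrt (1 - γ) : ℝ) : ℂ) else 0)
    else if k = 1 then
      (if s = false ∧ t = true then ((Real.sqrt (1 - ν) * Real.sqrt γ : ℝ) : ℂ) else 0)
    else if k = 2 then
      (if s = false ∧ t = false then ((Real.sqrt ν * Real.sqrt (1 - γ) : ℝ) : ℂ)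
        else if s = true ∧ t = true then ((Real.sqrt ν : ℝ) : ℂ) else 0)
    else
      (if s = true ∧ t = false then ((Real.sqrt ν * Real.sqrt γ : ℝ) : ℂ) else 0)

theorem gadKraus_sum {γ ν : ℝ} (hγ : γ ∈ Set.Icc (0 : ℝ) 1) (hν : ν ∈ Set.Icc (0 : ℝ) 1) :
    ∑ k, (gadKraus γ ν k)ᴴ * gadKraus γ ν k = 1 := by
  have h1 : ((Real.sqrt ν : ℝ) : ℂ) * ((Real.sqrt ν : ℝ) : ℂ) = ν := by
    rw [← Complex.ofReal_mul, Real.mul_self_sqrt hν.1]
  have h2 : ((Real.sqrt (1 - ν) : ℝ) : ℂ) * ((Real.sqrt (1 - ν) : ℝ) : ℂ) = 1 - ν := by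
    rw [← Complex.ofReal_mul, Real.mul_self_sqrt (by linarith [hν.2])]; push_cast; ring
  have h3 : ((Real.sqrt γ : ℝ) : ℂ) * ((Real.sqrt γ : ℝ) : ℂ) = γ := by
    rw [← Complex.ofReal_mul, Real.mul_self_sqrt hγ.1]
  have h4 : ((Real.sqrt (1 - γ) : ℝ) : ℂ) * ((Real.sqrt (1 - γ) : ℝ) : ℂ) = 1 - γ := by
    rw [← Complex.ofReal_mul, Real.mul_self_sqrt (by linarith [hγ.2])]; push_cast; ring
  ext s t
  cases s <;> cases t <;>
    simp [Fin.sum_univ_four, Matrix.mul_apply, gadKraus, Matrix.add_apply]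
  · linear_combination h2 + ((Real.sqrt (1 - γ) : ℝ) : ℂ) * ((Real.sqrt (1 - γ) : ℝ) : ℂ) * h1 +
      (ν : ℂ) * h4 + ((Real.sqrt γ : ℝ) : ℂ) * ((Real.sqrt γ : ℝ) : ℂ) * h1 + (ν : ℂ) * h3
  · linear_combination h1 + ((Real.sqrt (1 - γ) : ℝ) : ℂ) * ((Real.sqrt (1 - γ) : ℝ) : ℂ) * h2 +
      (1 - ν : ℂ) * h4 + ((Real.sqrt γ : ℝ) : ℂ) * ((Real.sqrt γ : ℝ) : ℂ) * h2 + (1 - ν : ℂ) * h3

theorem gadMap_eq_kraus {γ ν : ℝ} (hγ : γ ∈ Set.Icc (0 : ℝ) 1) (hν : ν ∈ Set.Icc (0 : ℝ) 1) :
    gadMap γ ν = fun M : Matrix Bool Bool ℂ => ∑ k, gadKraus γ ν k * M * (gadKraus γ ν k)ᴴ := by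
  have h1 : ((Real.sqrt ν : ℝ) : ℂ) * ((Real.sqrt ν : ℝ) : ℂ) = ν := by
    rw [← Complex.ofReal_mul, Real.mul_self_sqrt hν.1]
  have h2 : ((Real.sqrt (1 - ν) : ℝ) : ℂ) * ((Real.sqrt (1 - ν) : ℝ) : ℂ) = 1 - ν := by
    rw [← Complex.ofReal_mul, Real.mul_self_sqrt (by linarith [hν.2])]; push_cast; ring
  have h3 : ((Real.sqrt γ : ℝ) : ℂ) * ((Real.sqrt γ : ℝ) : ℂ) = γ := by
    rw [← Complex.ofReal_mul, Real.mul_self_sqrt hγ.1]
  have h4 : ((Real.sqrt (1 - γ) : ℝ) : ℂ) * ((Real.sqrt (1 - γ) : ℝ) : ℂ) = 1 - γ := by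
    rw [← Complex.ofReal_mul, Real.mul_self_sqrt (by linarith [hγ.2])]; push_cast; ring
  funext M
  ext s t
  cases s <;> cases t <;>
    simp [Fin.sum_univ_four, Matrix.mul_apply, gadKraus, Matrix.add_apply, gadMap]
  · linear_combination (-(M false false)) * h2 - M false false *
      (((Real.sqrt (1 - γ) : ℝ) : ℂ) * ((Real.sqrt (1 - γ) : ℝ) : ℂ) * h1 +
      (ν : ℂ) * h4) - M true true * (((Real.sqrt γ : ℝ) : ℂ) * ((Real.sqrt γ : ℝ) : ℂ) * h2 + (1 - ν : ℂ) * h3)
  · linear_combination (-(M false true)) * ((Real.sqrt (1 - γ) : ℝ) : ℂ) * h2 -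
      (M false true) * ((Real.sqrt (1 - γ) : ℝ) : ℂ) * h1
  · linear_combination (-(M true false)) * ((Real.sqrt (1 - γ) : ℝ) : ℂ) * h2 -
      (M true false) * ((Real.sqrt (1 - γ) : ℝ) : ℂ) * h1
  · linear_combination (-(M true true)) * h1 - M true true *
      (((Real.sqrt (1 - γ) : ℝ) : ℂ) * ((Real.sqrt (1 - γ) : ℝ) : ℂ) * h2 +
      (1 - ν : ℂ) * h4) - M false false * (((Real.sqrt γ : ℝ) : ℂ) * ((Real.sqrt γ : ℝ) : ℂ) * h1 + (ν : ℂ) * h3)

theorem gadMap_isChannel {γ ν : ℝ} (hγ : γ ∈ Set.Icc (0 : ℝ) 1) (hν : ν ∈ Set.Icc (0 : ℝ) 1) :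
    IsChannel (gadMap γ ν) := by
  rw [gadMap_eq_kraus hγ hν]
  exact isChannel_of_kraus _ (gadKraus_sum hγ hν)

/-- product Kraus operators -/
noncomputable def powKraus {κ : Type*} (n : ℕ) (K : κ → Matrix Bool Bool ℂ) (f : Fin n → κ) :
    Matrix (Fin n → Bool) (Fin n → Bool) ℂ :=
  Matrix.of fun σ τ => ∏ i, K (f i) (σ i) (τ i)

theorem powKraus_sum {κ : Type*} [Fintype κ] [DecidableEq κ] (n : ℕ) (K : κ → Matrix Bool Bool ℂ)
    (hK : ∑ k, (K k)ᴴ * K k = 1) : ∑ f : Fin n → κ, (powKraus n K f)ᴴ * powKraus n K f = 1 := by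
  ext σ τ
  have hK' : ∀ s t : Bool, ∑ x : Bool, ∑ k, star (K k x s) * K k x t = if s = t then 1 else 0 := by
    intro s t
    have := congrFun (congrFun hK s) t
    rw [Matrix.sum_apply] at this
    simp only [Matrix.mul_apply, Matrix.conjTranspose_apply, Matrix.one_apply] at this
    rw [Finset.sum_comm, this]
  rw [Matrix.sum_apply]
  simp only [Matrix.mul_apply, Matrix.conjTranspose_apply, powKraus, Matrix.of_apply, star_prod,
    ← Finset.prod_mul_distrib]
  rw [Finset.sum_comm]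
  have h1 : ∀ ρ : Fin n → Bool,
      ∑ f : Fin n → κ, ∏ i, (star (K (f i) (ρ i) (σ i)) * K (f i) (ρ i) (τ i)) =
        ∏ i, ∑ k, (star (K k (ρ i) (σ i)) * K k (ρ i) (τ i)) := by
    intro ρ
    rw [Finset.prod_univ_sum, Fintype.piFinset_univ]
  simp only [h1]
  have h2 : ∑ ρ : Fin n → Bool, ∏ i, ∑ k, (star (K k (ρ i) (σ i)) * K k (ρ i) (τ i)) =
      ∏ i, ∑ x : Bool, ∑ k, (star (K k x (σ i)) * K k x (τ i)) := by
    rw [Finset.prod_univ_sum, Fintype.piFinset_univ]
  rw [h2]
  simp only [hK', Matrix.one_apply]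
  by_cases h : σ = τ
  · subst h; simp
  · rw [if_neg h]
    obtain ⟨i, hi⟩ := Function.ne_iff.mp h
    exact Finset.prod_eq_zero (Finset.mem_univ i) (if_neg hi)

theorem qubitPower_eq_kraus {κ : Type*} [Fintype κ] [DecidableEq κ] (n : ℕ)
    (K : κ → Matrix Bool Bool ℂ) :
    qubitPower n (fun M : Matrix Bool Bool ℂ => ∑ k, K k * M * (K k)ᴴ) =
      fun M => ∑ f : Fin n → κ, powKraus n K f * M * (powKraus n K f)ᴴ := by
  have hc : ∀ s t s' t' : Bool,
      qubitCoeff (fun M : Matrix Bool Bool ℂ => ∑ k, K k * M * (K k)ᴴ) s t s' t' =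
        ∑ k, K k s s' * star (K k t t') := by
    intro s t s' t'
    simp only [qubitCoeff, Matrix.sum_apply]
    refine Finset.sum_congr rfl fun k _ => ?_
    simp only [Matrix.mul_apply, Matrix.conjTranspose_apply, Matrix.single_apply]
    rw [Finset.sum_eq_single t']
    · congr 1
      rw [Finset.sum_eq_single s']
      · simp
      · intro b _ hb
        simp [Ne.symm hb]
      · simp
    · intro b _ hb
      simp [Ne.symm hb]
    · simp
  funext M
  ext σ τ
  simp only [qubitPower, Matrix.of_apply, hc, Matrix.sum_apply]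
  have h1 : ∀ σ' τ' : Fin n → Bool,
      ∏ i, ∑ k, K k (σ i) (σ' i) * star (K k (τ i) (τ' i)) =
        ∑ f : Fin n → κ, ∏ i, (K (f i) (σ i) (σ' i) * star (K (f i) (τ i) (τ' i))) := by
    intro σ' τ'
    rw [Finset.prod_univ_sum, Fintype.piFinset_univ]
  simp only [h1, Matrix.mul_apply, Matrix.conjTranspose_apply, powKraus, Matrix.of_apply, star_prod,
    Finset.sum_mul, Finset.prod_mul_distrib]
  calc ∑ x, ∑ x_1, ∑ f : Fin n → κ,
        (∏ i, K (f i) (σ i) (x i)) * (∏ i, star (K (f i) (τ i) (x_1 i))) * M x x_1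
      = ∑ x, ∑ f : Fin n → κ, ∑ x_1,
        (∏ i, K (f i) (σ i) (x i)) * (∏ i, star (K (f i) (τ i) (x_1 i))) * M x x_1 := by
        refine Finset.sum_congr rfl fun x _ => Finset.sum_comm
    _ = ∑ f : Fin n → κ, ∑ x, ∑ x_1,
        (∏ i, K (f i) (σ i) (x i)) * (∏ i, star (K (f i) (τ i) (x_1 i))) * M x x_1 :=
        Finset.sum_comm
    _ = _ := by
        refine Finset.sum_congr rfl fun f _ => ?_
        rw [Finset.sum_comm]
        refine Finset.sum_congr rfl fun y _ => Finset.sum_congr rfl fun x _ => ?_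
        ring

/-- the tensor power of GAD is a channel -/
theorem qubitPower_isChannel {γ ν : ℝ} (hγ : γ ∈ Set.Icc (0 : ℝ) 1)
    (hν : ν ∈ Set.Icc (0 : ℝ) 1) (n : ℕ) : IsChannel (qubitPower n (gadMap γ ν)) := by
  rw [gadMap_eq_kraus hγ hν, qubitPower_eq_kraus]
  exact isChannel_of_kraus _ (powKraus_sum n _ (gadKraus_sum hγ hν))

/-- `(Fin (n+1) → Bool) ≃ Bool × (Fin n → Bool)` -/
def splitBits (n : ℕ) : (Fin (n + 1) → Bool) ≃ Bool × (Fin n → Bool) :=
  (Fin.consEquiv (fun _ => Bool)).symm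

/-- `qubitPower (n+1) Φ` is `qubitTensor Φ (qubitPower n Φ)` up to reindexing -/
theorem qubitPower_succ (Φ : Matrix Bool Bool ℂ → Matrix Bool Bool ℂ) (n : ℕ)
    (M : Matrix (Fin (n + 1) → Bool) (Fin (n + 1) → Bool) ℂ) :
    qubitPower (n + 1) Φ M =
      (qubitTensor Φ (qubitPower n Φ)
        (M.submatrix (splitBits n).symm (splitBits n).symm)).submatrix
          (splitBits n) (splitBits n) := by
  ext σ τ
  simp only [qubitPower, qubitTensor, Matrix.of_apply, Matrix.submatrix_apply, block]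
  rw [← (splitBits n).symm.sum_comp, Fintype.sum_prod_type]
  refine Finset.sum_congr rfl fun s' _ => ?_
  have h : ∀ x : Fin n → Bool,
      ∑ τ' : Fin (n + 1) → Bool, (∏ i, qubitCoeff Φ (σ i) (τ i) ((splitBits n).symm (s', x) i) (τ' i)) *
        M ((splitBits n).symm (s', x)) τ' =
      ∑ t' : Bool, ∑ y : Fin n → Bool, qubitCoeff Φ (splitBits n σ).1 (splitBits n τ).1 s' t' *
        ((∏ i, qubitCoeff Φ ((splitBits n σ).2 i) ((splitBits n τ).2 i) (x i) (y i)) *
          M ((splitBits n).symm (s', x)) ((splitBits n).symm (t', y))) := by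
    intro x
    rw [← (splitBits n).symm.sum_comp, Fintype.sum_prod_type]
    refine Finset.sum_congr rfl fun t' _ => Finset.sum_congr rfl fun y _ => ?_
    rw [Fin.prod_univ_succ, mul_assoc]
    rfl
  simp only [h]
  rw [Finset.sum_comm]
  refine Finset.sum_congr rfl fun t' _ => ?_
  simp only [Finset.mul_sum]







end Crest.Agent.R341
end

-- ▼ part R341/Ent4
section

/-!
# Entropy toolbox, part 4 (row 341): bit strings, product states, qubits
-/

set_option autoImplicit false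
set_option linter.unusedSectionVars false
open scoped ComplexOrder Matrix Kronecker
open Crest.Quantum Matrix

namespace Crest.Agent.R341

variable {d e n m : Type*} [Fintype d] [Fintype e] [Fintype n] [Fintype m]
variable [DecidableEq d] [DecidableEq e] [DecidableEq n] [DecidableEq m]

section product

variable {ι β : Type*} [Fintype ι] [DecidableEq ι] [Fintype β] [DecidableEq β]

/-- marginalization in a product weight -/
lemma sum_prod_mul_single (w : ι → β → ℝ) (i : ι) (φ : β → ℝ)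
    (hw : ∀ j, ∑ b, w j b = 1) :
    ∑ σ : ι → β, (∏ j, w j (σ j)) * φ (σ i) = ∑ b, w i b * φ b := by
  have h1 : ∀ σ : ι → β, (∏ j, w j (σ j)) * φ (σ i)
      = ∏ j, (w j (σ j) * if j = i then φ (σ j) else 1) := by
    intro σ
    rw [Finset.prod_mul_distrib]
    congr 1
    rw [Finset.prod_ite_eq' Finset.univ i (fun j => φ (σ j))]
    simp
  simp_rw [h1]
  rw [← Fintype.piFinset_univ, ← Finset.prod_univ_sum (fun _ => Finset.univ)
    (fun j b => w j b * if j = i then φ b else 1)]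
  rw [Finset.prod_eq_single i]
  · simp
  · intro j _ hj
    simp [hj, hw j]
  · simp

/-- entropy of a product weight -/
lemma sum_negMulLog_prod (w : ι → β → ℝ) (hw : ∀ j, ∑ b, w j b = 1) :
    ∑ σ : ι → β, Real.negMulLog (∏ j, w j (σ j)) = ∑ i, ∑ b, Real.negMulLog (w i b) := by
  have h1 : ∀ σ : ι → β, Real.negMulLog (∏ j, w j (σ j))
      = -∑ i, (∏ j, w j (σ j)) * Real.log (w i (σ i)) := by
    intro σ
    rw [Real.negMulLog]
    by_cases h : ∃ j, w j (σ j) = 0
    · obtain ⟨j, hj⟩ := h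
      rw [Finset.prod_eq_zero (Finset.mem_univ j) hj]
      simp
    · push Not at h
      rw [Real.log_prod (fun j _ => h j), Finset.mul_sum, ← Finset.sum_neg_distrib]
      exact Finset.sum_congr rfl fun i _ => by ring
  simp_rw [h1]
  rw [Finset.sum_neg_distrib, Finset.sum_comm, ← Finset.sum_neg_distrib]
  refine Finset.sum_congr rfl fun i _ => ?_
  rw [sum_prod_mul_single w i (fun b => Real.log (w i b)) hw, ← Finset.sum_neg_distrib]
  exact Finset.sum_congr rfl fun b _ => by rw [Real.negMulLog]; ring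

end product

section bits

variable {ι : Type*} [Fintype ι] [DecidableEq ι]

/-- marginal probability that bit `i` is `true` -/
noncomputable def pop (p : (ι → Bool) → ℝ) (i : ι) : ℝ := ∑ σ : ι → Bool, if σ i then p σ else 0

lemma pop_nonneg {p : (ι → Bool) → ℝ} (hp : ∀ σ, 0 ≤ p σ) (i : ι) : 0 ≤ pop p i :=
  Finset.sum_nonneg fun σ _ => by split_ifs <;> simp [hp]

lemma pop_compl {p : (ι → Bool) → ℝ} (h1 : ∑ σ, p σ = 1) (i : ι) :
    ∑ σ : ι → Bool, (if σ i then 0 else p σ) = 1 - pop p i := by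
  rw [pop, ← h1, ← Finset.sum_sub_distrib]
  exact Finset.sum_congr rfl fun σ _ => by split_ifs <;> simp

lemma pop_le_one {p : (ι → Bool) → ℝ} (hp : ∀ σ, 0 ≤ p σ) (h1 : ∑ σ, p σ = 1) (i : ι) :
    pop p i ≤ 1 := by
  have h := pop_compl h1 i
  have h2 : 0 ≤ ∑ σ : ι → Bool, (if σ i then 0 else p σ) :=
    Finset.sum_nonneg fun σ _ => by split_ifs <;> simp [hp]
  linarith

/-- Classical subadditivity for bit strings. -/
theorem classical_bits {p : (ι → Bool) → ℝ} (hp : ∀ σ, 0 ≤ p σ) (h1 : ∑ σ, p σ = 1) :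
    ∑ σ, Real.negMulLog (p σ) ≤ ∑ i, Real.binEntropy (pop p i) := by
  set w : ι → Bool → ℝ := fun i b => if b then pop p i else 1 - pop p i with hw
  have hw0 : ∀ i b, 0 ≤ w i b := by
    intro i b
    simp only [hw]
    split_ifs
    · exact pop_nonneg hp i
    · have := pop_le_one hp h1 i; linarith
  have hws : ∀ i, ∑ b, w i b = 1 := by intro i; simp [hw]
  have hpw : ∀ σ i, p σ ≤ w i (σ i) := by
    intro σ i
    simp only [hw]
    split_ifs with h
    · have := Finset.single_le_sum (f := fun σ : ι → Bool => if σ i then p σ else 0)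
        (fun τ _ => by split_ifs <;> simp [hp]) (Finset.mem_univ σ)
      simpa [h, pop] using this
    · have := Finset.single_le_sum (f := fun σ : ι → Bool => if σ i then 0 else p σ)
        (fun τ _ => by split_ifs <;> simp [hp]) (Finset.mem_univ σ)
      rw [pop_compl h1 i] at this
      simpa [h] using this
  have hprod : ∑ σ : ι → Bool, ∏ i, w i (σ i) = 1 := by
    rw [← Fintype.piFinset_univ, ← Finset.prod_univ_sum (fun _ => Finset.univ) (fun j b => w j b)]
    exact Finset.prod_eq_one fun i _ => hws i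
  have hg := gibbs (p := p) (q := fun σ => ∏ i, w i (σ i)) hp
    (fun σ => Finset.prod_nonneg fun i _ => hw0 i _) (by rw [hprod, h1])
    (by
      intro σ h
      obtain ⟨i, -, hi⟩ := Finset.prod_eq_zero_iff.1 h
      exact le_antisymm (hi ▸ hpw σ i) (hp σ))
  refine hg.trans (le_of_eq ?_)
  have h2 : ∀ σ : ι → Bool, p σ * Real.log (∏ i, w i (σ i)) = ∑ i, p σ * Real.log (w i (σ i)) := by
    intro σ
    rcases (hp σ).eq_or_lt with h0 | h0
    · simp [← h0]
    · rw [Real.log_prod (fun i _ => (lt_of_lt_of_le h0 (hpw σ i)).ne'), Finset.mul_sum]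
  simp_rw [h2]
  rw [Finset.sum_comm, ← Finset.sum_neg_distrib]
  refine Finset.sum_congr rfl fun i _ => ?_
  have h3 : ∀ σ : ι → Bool, p σ * Real.log (w i (σ i))
      = (if σ i then p σ else 0) * Real.log (pop p i)
        + (if σ i then 0 else p σ) * Real.log (1 - pop p i) := by
    intro σ
    simp only [hw]
    split_ifs <;> simp
  simp_rw [h3]
  rw [Finset.sum_add_distrib, ← Finset.sum_mul, ← Finset.sum_mul, pop_compl h1 i]
  change -(pop p i * Real.log (pop p i) + _) = _
  rw [Real.binEntropy_eq_negMulLog_add_negMulLog_one_sub, Real.negMulLog, Real.negMulLog]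
  ring

/-- `n`-qubit subadditivity in the computational basis. -/
theorem vnEntropy_le_bits {M : Matrix (ι → Bool) (ι → Bool) ℂ} (hM : M.PosSemidef)
    (h1 : M.trace = 1) :
    vnEntropy M ≤ ∑ i, Real.binEntropy (pop (fun σ => (M σ σ).re) i) := by
  have h := vnEntropy_le_dg hM (IsUni.one (d := ι → Bool))
  simp_rw [dg_one] at h
  refine h.trans (classical_bits ?_ ?_)
  · intro σ
    have := dg_nonneg hM (1 : Matrix (ι → Bool) (ι → Bool) ℂ) σ
    rwa [dg_one] at this
  · have := sum_dg (M := M) (IsUni.one (d := ι → Bool))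
    simp_rw [dg_one] at this
    rw [this, h1, Complex.one_re]

end bits

section prodMat

variable {ι β : Type*} [Fintype ι] [DecidableEq ι] [Fintype β] [DecidableEq β]

/-- product (tensor) matrix on words -/
def prodMat (A : ι → Matrix β β ℂ) : Matrix (ι → β) (ι → β) ℂ :=
  Matrix.of fun σ τ => ∏ i, A i (σ i) (τ i)

lemma prodMat_mul (A B : ι → Matrix β β ℂ) :
    prodMat A * prodMat B = prodMat (fun i => A i * B i) := by
  ext σ τ
  rw [Matrix.mul_apply]
  simp only [prodMat, Matrix.of_apply]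
  simp_rw [← Finset.prod_mul_distrib]
  rw [← Fintype.piFinset_univ, ← Finset.prod_univ_sum (fun _ => Finset.univ)
    (fun i b => A i (σ i) b * B i b (τ i))]
  exact Finset.prod_congr rfl fun i _ => by rw [Matrix.mul_apply]

lemma prodMat_conjTranspose (A : ι → Matrix β β ℂ) :
    (prodMat A)ᴴ = prodMat (fun i => (A i)ᴴ) := by
  ext σ τ
  simp [prodMat, conjTranspose_apply]

lemma prodMat_diagonal (l : ι → β → ℂ) :
    prodMat (fun i => diagonal (l i)) = diagonal (fun σ : ι → β => ∏ i, l i (σ i)) := by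
  ext σ τ
  simp only [prodMat, Matrix.of_apply, diagonal_apply]
  by_cases h : σ = τ
  · subst h; simp
  · rw [if_neg h]
    obtain ⟨i, hi⟩ := Function.ne_iff.1 h
    exact Finset.prod_eq_zero (Finset.mem_univ i) (by rw [if_neg hi])

lemma prodMat_one : prodMat (fun _ : ι => (1 : Matrix β β ℂ)) = 1 := by
  have := prodMat_diagonal (ι := ι) (β := β) (fun _ _ => 1)
  simpa using this

lemma IsUni.prodMat {U : ι → Matrix β β ℂ} (hU : ∀ i, IsUni (U i)) :
    IsUni (prodMat U) := by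
  constructor
  · rw [prodMat_conjTranspose, prodMat_mul]
    simp_rw [(hU _).left]
    exact prodMat_one
  · rw [prodMat_conjTranspose, prodMat_mul]
    simp_rw [(hU _).right]
    exact prodMat_one

lemma prodMat_spec (U : ι → Matrix β β ℂ) (l : ι → β → ℝ) :
    prodMat (fun i => spec (U i) (l i)) = spec (prodMat U) (fun σ => ∏ i, l i (σ i)) := by
  simp only [spec]
  rw [← prodMat_mul, ← prodMat_mul, prodMat_diagonal, prodMat_conjTranspose]
  push_cast
  rfl

lemma prodMat_posSemidef {A : ι → Matrix β β ℂ} (hA : ∀ i, (A i).PosSemidef) :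
    (prodMat A).PosSemidef := by
  choose U l hU hl hE using fun i => exists_spec (hA i)
  have : A = fun i => spec (U i) (l i) := funext hE
  rw [this, prodMat_spec]
  exact spec_posSemidef _ fun σ => Finset.prod_nonneg fun i _ => hl i _

lemma prodMat_trace (A : ι → Matrix β β ℂ) : (prodMat A).trace = ∏ i, (A i).trace := by
  simp only [Matrix.trace, diag_apply, prodMat, Matrix.of_apply]
  rw [Finset.prod_univ_sum, Fintype.piFinset_univ]

/-- entropy of a product state -/
theorem vnEntropy_prodMat {A : ι → Matrix β β ℂ} (hA : ∀ i, (A i).PosSemidef)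
    (h1 : ∀ i, (A i).trace = 1) : vnEntropy (prodMat A) = ∑ i, vnEntropy (A i) := by
  choose U l hU hl hE using fun i => exists_spec (hA i)
  have hl1 : ∀ i, ∑ b, l i b = 1 := by
    intro i
    have := h1 i
    rw [hE i, spec_trace (hU i)] at this
    exact_mod_cast this
  have : A = fun i => spec (U i) (l i) := funext hE
  rw [this, prodMat_spec, vnEntropy_spec (IsUni.prodMat hU)
    (fun σ => Finset.prod_nonneg fun i _ => hl i _), sum_negMulLog_prod l hl1]
  exact Finset.sum_congr rfl fun i _ => (vnEntropy_spec (hU i) (hl i)).symm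

end prodMat

/-- entropy of a qubit state from its determinant -/
theorem vnEntropy_two {M : Matrix Bool Bool ℂ} (hM : M.PosSemidef) (h1 : M.trace = 1) :
    vnEntropy M = Real.binEntropy ((1 + Real.sqrt (1 - 4 * M.det.re)) / 2) := by
  rw [vnEntropy_def hM.1, Fintype.sum_bool]
  set a := hM.1.eigenvalues true
  set b := hM.1.eigenvalues false
  have hs : a + b = 1 := by
    have h := hM.1.trace_eq_sum_eigenvalues
    rw [h1, Fintype.sum_bool] at h
    have h2 : ((a + b : ℝ) : ℂ) = 1 := by rw [Complex.ofReal_add]; exact h.symm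
    exact_mod_cast h2
  have hd : M.det.re = a * b := by
    rw [hM.1.det_eq_prod_eigenvalues, Fintype.prod_bool]
    norm_cast
  have hb : b = 1 - a := by linarith
  have hq : 1 - 4 * M.det.re = (2 * a - 1) ^ 2 := by rw [hd, hb]; ring
  rw [hq, Real.sqrt_sq_eq_abs, hb, ← Real.binEntropy_eq_negMulLog_add_negMulLog_one_sub]
  rcases le_total 0 (2 * a - 1) with h | h
  · rw [abs_of_nonneg h]
    congr 1
    ring
  · rw [abs_of_nonpos h, ← Real.binEntropy_one_sub]
    congr 1
    ring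

end Crest.Agent.R341
end

-- ▼ part R341/Glue534
section

/-!
# Row 341: S0534 from the key inequality
-/

set_option autoImplicit false
set_option linter.unusedSectionVars false

namespace Crest.Agent.R341

open Crest.Quantum Crest.MathPhysics.AmpDamp Matrix
open scoped ComplexOrder

/-- populations of a matrix on bit strings -/
noncomputable def mpop {n : ℕ} (M : Matrix (Fin n → Bool) (Fin n → Bool) ℂ) (i : Fin n) : ℝ :=
  pop (fun σ => (M σ σ).re) i

lemma vnEntropy_nonneg {d : Type*} [Fintype d] [DecidableEq d] {M : Matrix d d ℂ}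
    (hM : M.PosSemidef) (h1 : M.trace = 1) : 0 ≤ vnEntropy M := by
  rw [vnEntropy_def hM.1]
  refine Finset.sum_nonneg fun i _ => Real.negMulLog_nonneg (hM.eigenvalues_nonneg i) ?_
  have hs : ∑ i, hM.1.eigenvalues i = 1 := by
    have h := hM.1.trace_eq_sum_eigenvalues
    rw [h1] at h
    have h2 : ((∑ i, hM.1.eigenvalues i : ℝ) : ℂ) = ((1 : ℝ) : ℂ) := by
      rw [Complex.ofReal_sum, Complex.ofReal_one]
      exact h.symm
    exact Complex.ofReal_injective h2
  rw [← hs]
  exact Finset.single_le_sum (fun j _ => hM.eigenvalues_nonneg j) (Finset.mem_univ i)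

lemma psd_of_cp {d e : Type*} [Fintype d] [Fintype e] [DecidableEq d] [DecidableEq e]
    {Ψ : Matrix d d ℂ → Matrix e e ℂ} (hΨ : IsCompletelyPositive Ψ) {M : Matrix d d ℂ}
    (hM : M.PosSemidef) : (Ψ M).PosSemidef := by
  have h := hΨ 1 (M.submatrix Prod.snd Prod.snd) (hM.submatrix _)
  have h2 := h.submatrix (fun i : e => ((0 : Fin 1), i))
  have e1 : Ψ M = (blockwise Ψ (M.submatrix (Prod.snd : Fin 1 × d → d) Prod.snd)).submatrix
      (fun i : e => ((0 : Fin 1), i)) (fun i : e => ((0 : Fin 1), i)) := by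
    ext i j
    simp only [blockwise, Matrix.submatrix_apply, Matrix.of_apply]
    rfl
  rw [e1]
  exact h2

lemma diag_re_nonneg {d : Type*} [Fintype d] [DecidableEq d] {M : Matrix d d ℂ}
    (hM : M.PosSemidef) (i : d) : 0 ≤ (M i i).re :=
  (Complex.le_def.1 (hM.diag_nonneg (i := i))).1

lemma sum_diag_re {d : Type*} [Fintype d] (M : Matrix d d ℂ) :
    ∑ i, (M i i).re = M.trace.re := by
  simp [Matrix.trace]

lemma mpop_nonneg {n : ℕ} {M : Matrix (Fin n → Bool) (Fin n → Bool) ℂ} (hM : M.PosSemidef)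
    (i : Fin n) : 0 ≤ mpop M i :=
  pop_nonneg (fun _ => diag_re_nonneg hM _) i

lemma mpop_le_trace {n : ℕ} {M : Matrix (Fin n → Bool) (Fin n → Bool) ℂ} (hM : M.PosSemidef)
    (i : Fin n) : mpop M i ≤ M.trace.re := by
  rw [← sum_diag_re]
  refine Finset.sum_le_sum fun σ _ => ?_
  simp only
  split_ifs
  · exact le_rfl
  · exact diag_re_nonneg hM _

lemma mpop_smul {n : ℕ} (c : ℝ) (M : Matrix (Fin n → Bool) (Fin n → Bool) ℂ) (i : Fin n) :
    mpop ((c : ℂ) • M) i = c * mpop M i := by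
  simp only [mpop, pop, Finset.mul_sum]
  refine Finset.sum_congr rfl fun σ _ => ?_
  split_ifs <;> simp

lemma mpop_sum {n : ℕ} {ι : Type*} (s : Finset ι)
    (M : ι → Matrix (Fin n → Bool) (Fin n → Bool) ℂ) (i : Fin n) :
    mpop (∑ a ∈ s, M a) i = ∑ a ∈ s, mpop (M a) i := by
  simp only [mpop, pop]
  rw [Finset.sum_comm]
  refine Finset.sum_congr rfl fun σ _ => ?_
  split_ifs
  · rw [Matrix.sum_apply, Complex.re_sum]
  · simp

lemma splitBits_symm_apply (n : ℕ) (b : Bool) (σ : Fin n → Bool) :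
    (splitBits n).symm (b, σ) = Fin.cons b σ := rfl

lemma mpop_zero_eq {n : ℕ} (M : Matrix (Fin (n + 1) → Bool) (Fin (n + 1) → Bool) ℂ) :
    mpop M 0 = (block (M.submatrix (splitBits n).symm (splitBits n).symm) true true).trace.re := by
  rw [← sum_diag_re, mpop, pop, ← Equiv.sum_comp (splitBits n).symm, Fintype.sum_prod_type,
    Fintype.sum_bool]
  simp [splitBits_symm_apply, block]

lemma mpop_succ_eq {n : ℕ} (M : Matrix (Fin (n + 1) → Bool) (Fin (n + 1) → Bool) ℂ) (i : Fin n) :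
    mpop M i.succ =
      mpop (block (M.submatrix (splitBits n).symm (splitBits n).symm) false false) i +
      mpop (block (M.submatrix (splitBits n).symm (splitBits n).symm) true true) i := by
  rw [mpop, pop, ← Equiv.sum_comp (splitBits n).symm, Fintype.sum_prod_type, Fintype.sum_bool,
    add_comm]
  simp [splitBits_symm_apply, block, mpop, pop]

/-- perspective inequality -/
lemma convex_persp {f : ℝ → ℝ} (hf : ConvexOn ℝ (Set.Icc 0 1) f) {p a c : ℝ} (hp0 : 0 ≤ p)
    (hp1 : p ≤ 1) (ha0 : 0 ≤ a) (ha1 : a ≤ 1 - p) (hc0 : 0 ≤ c) (hc1 : c ≤ p) :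
    f (a + c) ≤ (1 - p) * f (a / (1 - p)) + p * f (c / p) := by
  rcases hp0.eq_or_lt with rfl | hp0'
  · have : c = 0 := le_antisymm hc1 hc0
    subst this
    simp
  rcases hp1.eq_or_lt with rfl | hp1'
  · have : a = 0 := le_antisymm (by simpa using ha1) ha0
    subst this
    simp
  have hq : 0 < 1 - p := by linarith
  have h := hf.2 (x := a / (1 - p)) (y := c / p)
    ⟨by positivity, by rw [div_le_one hq]; exact ha1⟩
    ⟨by positivity, by rw [div_le_one hp0']; exact hc1⟩ hq.le hp0'.le (by ring)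
  simp only [smul_eq_mul] at h
  have e1 : (1 - p) * (a / (1 - p)) + p * (c / p) = a + c := by field_simp
  rwa [e1] at h

section lower

variable {γ ν : ℝ}

/-- Lower bound on output entropies by populations, unnormalised form. -/
lemma unnorm {n : ℕ} {Ψ : Matrix (Fin n → Bool) (Fin n → Bool) ℂ →
    Matrix (Fin n → Bool) (Fin n → Bool) ℂ} (hΨ : IsChannel Ψ) {f : ℝ → ℝ}
    (IH : ∀ ρ, IsDensity ρ → ∑ i, f (mpop ρ i) ≤ vnEntropy (Ψ ρ))
    {M : Matrix (Fin n → Bool) (Fin n → Bool) ℂ} (hM : M.PosSemidef) {t : ℝ}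
    (ht : M.trace = (t : ℂ)) :
    Real.negMulLog t + t * ∑ i, f (mpop M i / t) ≤ vnEntropy (Ψ M) := by
  have ht0 : 0 ≤ t := by
    have := hM.trace_nonneg
    rw [ht] at this
    exact_mod_cast this
  rcases ht0.eq_or_lt with rfl | htp
  · have hM0 : M = 0 := by
      rw [← hM.trace_eq_zero_iff, ht]; simp
    subst hM0
    have : Ψ 0 = 0 := hΨ.1.map_zero
    rw [this, vnEntropy_zero]
    simp
  · have hc : (0 : ℂ) ≤ ((t⁻¹ : ℝ) : ℂ) := by
      exact_mod_cast (inv_pos.2 htp).le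
    have hρ : IsDensity (((t⁻¹ : ℝ) : ℂ) • M) := by
      refine ⟨hM.smul hc, ?_⟩
      rw [trace_smul, ht, smul_eq_mul, ← Complex.ofReal_mul, inv_mul_cancel₀ htp.ne',
        Complex.ofReal_one]
    have h1 := IH _ hρ
    have h2 : Ψ M = (t : ℂ) • Ψ (((t⁻¹ : ℝ) : ℂ) • M) := by
      rw [hΨ.1.map_smul, smul_smul, ← Complex.ofReal_mul, mul_inv_cancel₀ htp.ne',
        Complex.ofReal_one, one_smul]
    have h3 : (Ψ (((t⁻¹ : ℝ) : ℂ) • M)).PosSemidef := psd_of_cp hΨ.2.1 hρ.1
    have h4 : (Ψ (((t⁻¹ : ℝ) : ℂ) • M)).trace = 1 := by rw [hΨ.2.2, hρ.2]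
    rw [h2, vnEntropy_smul h3 htp.le, h4, Complex.one_re, mul_one]
    simp_rw [mpop_smul] at h1
    have h5 : ∀ i, t⁻¹ * mpop M i = mpop M i / t := fun i => by rw [div_eq_inv_mul]
    simp_rw [h5] at h1
    have := mul_le_mul_of_nonneg_left h1 htp.le
    linarith

theorem qp_entropy_lower (hγ : γ ∈ Set.Icc (0 : ℝ) 1) (hν : ν ∈ Set.Icc (0 : ℝ) 1)
    (hK : KeyIneq γ ν) (hconv : ConvexOn ℝ (Set.Icc 0 1) (fOut γ ν)) :
    ∀ (n : ℕ) (ρ : Matrix (Fin n → Bool) (Fin n → Bool) ℂ), IsDensity ρ →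
      ∑ i, fOut γ ν (mpop ρ i) ≤ vnEntropy (qubitPower n (gadMap γ ν) ρ) := by
  intro n
  induction n with
  | zero =>
    intro ρ hρ
    have hc := qubitPower_isChannel hγ hν 0
    simp only [Finset.univ_eq_empty, Finset.sum_empty]
    exact vnEntropy_nonneg (psd_of_cp hc.2.1 hρ.1) (by rw [hc.2.2, hρ.2])
  | succ n IH =>
    intro ρ hρ
    have hc := qubitPower_isChannel hγ hν n
    set Ψ := qubitPower n (gadMap γ ν) with hΨdef
    set ρ' := ρ.submatrix (splitBits n).symm (splitBits n).symm with hρ'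
    have hρ'P : ρ'.PosSemidef := hρ.1.submatrix _
    have hρ'1 : ρ'.trace = 1 := by
      rw [← hρ.2, hρ']
      simp only [Matrix.trace, diag_apply, submatrix_apply]
      exact Equiv.sum_comp (splitBits n).symm (fun x => ρ x x)
    have hA := block_posSemidef hρ'P false
    have hC := block_posSemidef hρ'P true
    -- the output
    have hblk := fromBlocks_cp hc.2.1 hρ'P
    have hBt := cp_block_conj hc.2.1 hρ'P
    set A := Ψ (block ρ' false false) with hAdef
    set B := Ψ (block ρ' false true) with hBdef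
    set C := Ψ (block ρ' true true) with hCdef
    rw [hBt] at hblk
    have htr : A.trace + C.trace = 1 := by
      rw [hAdef, hCdef, hc.2.2, hc.2.2, trace_block_add, hρ'1]
    have hkey := hK (Fin n → Bool) A B C hblk htr
    have hout : vnEntropy (qubitPower (n + 1) (gadMap γ ν) ρ)
        = vnEntropy (gadBlocks γ ν A B Bᴴ C) := by
      have hch := qubitPower_isChannel hγ hν (n + 1)
      rw [qubitPower_succ, ← hρ', ← hΨdef]
      have e1 : qubitTensor (gadMap γ ν) Ψ ρ' = (gadBlocks γ ν A B Bᴴ C).submatrix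
          (Equiv.boolProdEquivSum _) (Equiv.boolProdEquivSum _) := by
        rw [qubitTensor_gad, ← hBt]
      have hP : (qubitPower (n + 1) (gadMap γ ν) ρ).PosSemidef := psd_of_cp hch.2.1 hρ.1
      rw [qubitPower_succ, ← hρ', ← hΨdef, e1] at hP
      have hP2 : (gadBlocks γ ν A B Bᴴ C).PosSemidef := by
        have h1 := hP.submatrix (splitBits n).symm
        have h2 := h1.submatrix (Equiv.boolProdEquivSum (Fin n → Bool)).symm
        convert h2 using 1
        ext i j
        rcases i with i | i <;> rcases j with j | j <;> simp [Equiv.boolProdEquivSum]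
      rw [e1, vnEntropy_submatrix (hP2.submatrix _), vnEntropy_submatrix hP2]
    -- traces
    set p := (block ρ' true true).trace.re with hp
    have hCtr : (block ρ' true true).trace = (p : ℂ) := by
      have := hC.trace_nonneg
      rw [hp]
      exact (Complex.ext rfl (by simpa using (Complex.le_def.1 this).2.symm))
    have hAtr : (block ρ' false false).trace = ((1 - p : ℝ) : ℂ) := by
      have := trace_block_add (ρ := ρ')
      rw [hρ'1, hCtr] at this
      push_cast
      exact eq_sub_of_add_eq this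
    have hp0 : 0 ≤ p := by
      have := hC.trace_nonneg
      rw [hCtr] at this
      exact_mod_cast this
    have hp1 : p ≤ 1 := by
      have := hA.trace_nonneg
      rw [hAtr] at this
      have h2 : 0 ≤ 1 - p := by exact_mod_cast this
      linarith
    have hCt : C.trace.re = p := by rw [hCdef, hc.2.2, hCtr, Complex.ofReal_re]
    rw [hCt] at hkey
    have hSA := unnorm hc IH hA hAtr
    have hSC := unnorm hc IH hC hCtr
    rw [hout]
    refine le_trans ?_ hkey
    rw [Fin.sum_univ_succ, mpop_zero_eq, ← hρ', ← hp,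
      Real.binEntropy_eq_negMulLog_add_negMulLog_one_sub]
    have hpersp : ∑ i : Fin n, fOut γ ν (mpop ρ i.succ)
        ≤ (1 - p) * ∑ i, fOut γ ν (mpop (block ρ' false false) i / (1 - p))
          + p * ∑ i, fOut γ ν (mpop (block ρ' true true) i / p) := by
      rw [Finset.mul_sum, Finset.mul_sum, ← Finset.sum_add_distrib]
      refine Finset.sum_le_sum fun i _ => ?_
      rw [mpop_succ_eq, ← hρ']
      refine convex_persp hconv hp0 hp1 (mpop_nonneg hA i) ?_ (mpop_nonneg hC i) ?_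
      · have := mpop_le_trace hA i
        rwa [hAtr, Complex.ofReal_re] at this
      · have := mpop_le_trace hC i
        rwa [hCtr, Complex.ofReal_re] at this
    linarith

end lower

end Crest.Agent.R341
end

-- ▼ part R341/FConv
section

/-!
# Convexity of the output entropy of a pure state as a function of its population (row 341)
-/

set_option autoImplicit false

namespace Crest.Agent.R341

open Real Set

/-- The entanglement-of-formation function of the concurrence. -/
noncomputable def eof (c : ℝ) : ℝ := Real.binEntropy ((1 + Real.sqrt (1 - c ^ 2)) / 2)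

lemma two_mul_le_log_sub_log {r : ℝ} (h0 : 0 ≤ r) (h1 : r < 1) :
    2 * r ≤ Real.log (1 + r) - Real.log (1 - r) := by
  have h := Real.hasSum_log_sub_log_of_abs_lt_one (x := r) (by rw [abs_of_nonneg h0]; exact h1)
  have h2 := le_hasSum h 0 (fun k _ => by positivity)
  simpa using h2

lemma eof_monotoneOn : MonotoneOn eof (Icc 0 1) := by
  intro x hx y hy hxy
  unfold eof
  have hx2 : 0 ≤ 1 - x ^ 2 := by nlinarith [hx.1, hx.2]
  have hy2 : 0 ≤ 1 - y ^ 2 := by nlinarith [hy.1, hy.2]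
  have hle : Real.sqrt (1 - y ^ 2) ≤ Real.sqrt (1 - x ^ 2) :=
    Real.sqrt_le_sqrt (by nlinarith [hx.1, hy.1])
  have hx1 : Real.sqrt (1 - x ^ 2) ≤ 1 := by
    exact Real.sqrt_le_one.2 (by nlinarith [sq_nonneg x])
  have hy1 : Real.sqrt (1 - y ^ 2) ≤ 1 := hle.trans hx1
  refine Real.binEntropy_strictAntiOn.antitoneOn ?_ ?_ (by linarith)
  · exact ⟨by have := Real.sqrt_nonneg (1 - y ^ 2); norm_num; linarith, by linarith⟩
  · exact ⟨by have := Real.sqrt_nonneg (1 - x ^ 2); norm_num; linarith, by linarith⟩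

lemma hasDerivAt_sqrt_one_sub_sq {c : ℝ} (h0 : 0 < c) (h1 : c < 1) :
    HasDerivAt (fun c : ℝ => Real.sqrt (1 - c ^ 2)) (-c / Real.sqrt (1 - c ^ 2)) c := by
  have hpos : 0 < 1 - c ^ 2 := by nlinarith
  have h0' : HasDerivAt (fun c : ℝ => 1 - c ^ 2) (-(2 * c)) c := by
    have := (hasDerivAt_pow 2 c).const_sub 1
    simpa using this
  have h := h0'.sqrt hpos.ne'
  refine h.congr_deriv ?_
  have := Real.sqrt_pos.2 hpos
  field_simp

lemma eof_convexOn : ConvexOn ℝ (Icc 0 1) eof := by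
  have hr : ∀ c ∈ Ioo (0 : ℝ) 1, 0 < Real.sqrt (1 - c ^ 2) ∧ Real.sqrt (1 - c ^ 2) < 1 := by
    intro c hc
    have hpos : 0 < 1 - c ^ 2 := by nlinarith [hc.1, hc.2]
    refine ⟨Real.sqrt_pos.2 hpos, ?_⟩
    rw [Real.sqrt_lt' one_pos]
    nlinarith [hc.1]
  refine convexOn_of_hasDerivWithinAt2_nonneg (convex_Icc 0 1)
    (f' := fun c => c / (2 * Real.sqrt (1 - c ^ 2)) *
      (Real.log (1 + Real.sqrt (1 - c ^ 2)) - Real.log (1 - Real.sqrt (1 - c ^ 2))))
    (f'' := fun c => (Real.log (1 + Real.sqrt (1 - c ^ 2)) - Real.log (1 - Real.sqrt (1 - c ^ 2))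
      - 2 * Real.sqrt (1 - c ^ 2)) / (2 * Real.sqrt (1 - c ^ 2) ^ 3)) ?_ ?_ ?_ ?_
  · apply Continuous.continuousOn
    unfold eof
    fun_prop
  · intro c hc
    rw [interior_Icc] at hc
    obtain ⟨hr0, hr1⟩ := hr c hc
    apply HasDerivAt.hasDerivWithinAt
    have h1 := hasDerivAt_sqrt_one_sub_sq hc.1 hc.2
    have h2 := (h1.const_add 1).div_const 2
    have h3 := (Real.hasDerivAt_binEntropy (p := (1 + Real.sqrt (1 - c ^ 2)) / 2)
      (by positivity) (by linarith)).comp c h2
    refine (h3.congr_deriv ?_)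
    have e1 : 1 - (1 + Real.sqrt (1 - c ^ 2)) / 2 = (1 - Real.sqrt (1 - c ^ 2)) / 2 := by ring
    rw [e1, Real.log_div (by linarith) two_ne_zero, Real.log_div (by linarith) two_ne_zero]
    field_simp
    ring
  · intro c hc
    rw [interior_Icc] at hc
    obtain ⟨hr0, hr1⟩ := hr c hc
    apply HasDerivAt.hasDerivWithinAt
    have h1 := hasDerivAt_sqrt_one_sub_sq hc.1 hc.2
    have h2 := (hasDerivAt_id c).div (h1.const_mul 2) (by positivity)
    have h3 := (h1.const_add 1).log (by linarith)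
    have h4 := (h1.const_sub 1).log (by linarith)
    have h5 := h2.mul (h3.sub h4)
    refine h5.congr_deriv ?_
    have hsq : Real.sqrt (1 - c ^ 2) ^ 2 = 1 - c ^ 2 := Real.sq_sqrt (by nlinarith [hc.1, hc.2])
    set r := Real.sqrt (1 - c ^ 2) with hrdef
    have hc2 : c ^ 2 = 1 - r ^ 2 := by linarith
    have hne1 : 1 + r ≠ 0 := by linarith
    have hne2 : 1 - r ≠ 0 := by linarith
    simp only [id, Pi.sub_apply, Pi.div_apply, ← hrdef]
    set l1 := Real.log (1 + r)
    set l2 := Real.log (1 - r)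
    field_simp
    rw [hc2]
    ring
  · intro c hc
    rw [interior_Icc] at hc
    obtain ⟨hr0, hr1⟩ := hr c hc
    have := two_mul_le_log_sub_log hr0.le hr1
    apply div_nonneg (by linarith) (by positivity)

/-- `4 v ≤ 1` on `[0,1]`. -/
lemma four_v_le_one {g n p : ℝ} (hg : g ∈ Icc (0 : ℝ) 1) (hp : p ∈ Icc (0 : ℝ) 1) :
    4 * (g * n * (1 - n) + g * (1 - g) * (p - n) ^ 2) ≤ 1 := by
  have h : 1 - 4 * (g * n * (1 - n) + g * (1 - g) * (p - n) ^ 2)
      = (1 - 2 * ((1 - g) * p + g * n)) ^ 2 + 4 * ((1 - g) * (p * (1 - p))) := by ring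
  have h2 : 0 ≤ (1 - g) * (p * (1 - p)) :=
    mul_nonneg (by linarith [hg.2]) (mul_nonneg hp.1 (by linarith [hp.2]))
  nlinarith [sq_nonneg (1 - 2 * ((1 - g) * p + g * n))]

lemma v_nonneg {g n : ℝ} (hg : g ∈ Icc (0 : ℝ) 1) (hn : n ∈ Icc (0 : ℝ) 1) (p : ℝ) :
    0 ≤ g * n * (1 - n) + g * (1 - g) * (p - n) ^ 2 := by
  have h1 : 0 ≤ g * n * (1 - n) := mul_nonneg (mul_nonneg hg.1 hn.1) (by linarith [hn.2])
  have h2 : 0 ≤ g * (1 - g) * (p - n) ^ 2 :=
    mul_nonneg (mul_nonneg hg.1 (by linarith [hg.2])) (sq_nonneg _)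
  linarith

/-- the concurrence-like function `2 √v` is convex -/
lemma conc_convexOn {g n : ℝ} (hg : g ∈ Icc (0 : ℝ) 1) (hn : n ∈ Icc (0 : ℝ) 1) :
    ConvexOn ℝ (Icc 0 1)
      (fun p => Real.sqrt (4 * (g * n * (1 - n) + g * (1 - g) * (p - n) ^ 2))) := by
  have ha : 0 ≤ 4 * (g * n * (1 - n)) :=
    mul_nonneg (by norm_num) (mul_nonneg (mul_nonneg hg.1 hn.1) (by linarith [hn.2]))
  have hb : 0 ≤ 4 * (g * (1 - g)) :=
    mul_nonneg (by norm_num) (mul_nonneg hg.1 (by linarith [hg.2]))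
  set α := Real.sqrt (4 * (g * n * (1 - n))) with hα
  set β := Real.sqrt (4 * (g * (1 - g))) with hβ
  have key : ∀ p : ℝ, Real.sqrt (4 * (g * n * (1 - n) + g * (1 - g) * (p - n) ^ 2))
      = ‖((α : ℂ) + ((β * (p - n) : ℝ) : ℂ) * Complex.I)‖ := by
    intro p
    rw [Complex.norm_add_mul_I]
    congr 1
    rw [mul_pow, hα, hβ, Real.sq_sqrt ha, Real.sq_sqrt hb]
    ring
  refine ⟨convex_Icc 0 1, ?_⟩
  intro x _ y _ a b ha' hb' hab
  simp only [key, smul_eq_mul]
  have e : ((α : ℂ) + ((β * (a * x + b * y - n) : ℝ) : ℂ) * Complex.I)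
      = (a : ℂ) * ((α : ℂ) + ((β * (x - n) : ℝ) : ℂ) * Complex.I)
        + (b : ℂ) * ((α : ℂ) + ((β * (y - n) : ℝ) : ℂ) * Complex.I) := by
    have hab' : (b : ℂ) = 1 - (a : ℂ) := by
      have : b = 1 - a := by linarith
      rw [this]; push_cast; ring
    push_cast
    rw [hab']
    ring
  rw [e]
  refine (norm_add_le _ _).trans ?_
  rw [norm_mul, norm_mul, Complex.norm_real, Complex.norm_real, Real.norm_of_nonneg ha',
    Real.norm_of_nonneg hb']

/-- The output entropy of the pure states of population `p` is a convex function of `p`. -/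
theorem convexOn_fOut_aux {g n : ℝ} (hg : g ∈ Icc (0 : ℝ) 1) (hn : n ∈ Icc (0 : ℝ) 1) :
    ConvexOn ℝ (Icc 0 1) (fun p => Real.binEntropy
      ((1 + Real.sqrt (1 - 4 * (g * n * (1 - n) + g * (1 - g) * (p - n) ^ 2))) / 2)) := by
  have hmem : ∀ p ∈ Icc (0 : ℝ) 1,
      Real.sqrt (4 * (g * n * (1 - n) + g * (1 - g) * (p - n) ^ 2)) ∈ Icc (0 : ℝ) 1 := by
    intro p hp
    refine ⟨Real.sqrt_nonneg _, ?_⟩
    exact Real.sqrt_le_one.2 (four_v_le_one hg hp)
  have key : ∀ p : ℝ, Real.binEntropy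
      ((1 + Real.sqrt (1 - 4 * (g * n * (1 - n) + g * (1 - g) * (p - n) ^ 2))) / 2)
      = eof (Real.sqrt (4 * (g * n * (1 - n) + g * (1 - g) * (p - n) ^ 2))) := by
    intro p
    unfold eof
    rw [Real.sq_sqrt (mul_nonneg (by norm_num) (v_nonneg hg hn p))]
  have hC := conc_convexOn hg hn
  refine ⟨convex_Icc 0 1, ?_⟩
  intro x hx y hy a b ha hb hab
  simp only [key]
  have hxy := (convex_Icc (0 : ℝ) 1) hx hy ha hb hab
  have hCxy := (convex_Icc (0 : ℝ) 1) (hmem x hx) (hmem y hy) ha hb hab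
  exact (eof_monotoneOn (hmem _ hxy) hCxy (hC.2 hx hy ha hb hab)).trans
    (eof_convexOn.2 (hmem x hx) (hmem y hy) ha hb hab)

end Crest.Agent.R341
end

-- ▼ part R341/Glue534B
section

/-!
# Row 341: upper bound of S0534
-/

set_option autoImplicit false
set_option linter.unusedSectionVars false

namespace Crest.Agent.R341

open Crest.Quantum Crest.MathPhysics.AmpDamp Matrix
open scoped ComplexOrder

/-- transition probabilities of the diagonal -/
noncomputable def tco (γ ν : ℝ) (s s' : Bool) : ℝ :=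
  if s' then (if s then 1 - γ + γ * ν else γ * (1 - ν)) else (if s then γ * ν else 1 - γ * ν)

lemma tco_sum (γ ν : ℝ) (s' : Bool) : ∑ b, tco γ ν b s' = 1 := by
  cases s' <;> simp [tco] <;> ring

lemma qubitCoeff_gad_diag (γ ν : ℝ) (s s' t' : Bool) :
    qubitCoeff (gadMap γ ν) s s s' t' = if s' = t' then (tco γ ν s s' : ℂ) else 0 := by
  cases s <;> cases s' <;> cases t' <;>
    simp [qubitCoeff, gadMap_ff, gadMap_tt, tco, Matrix.single]

lemma qubitPower_diag (γ ν : ℝ) {n : ℕ} (M : Matrix (Fin n → Bool) (Fin n → Bool) ℂ)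
    (σ : Fin n → Bool) :
    qubitPower n (gadMap γ ν) M σ σ
      = ∑ σ' : Fin n → Bool, ((∏ i, tco γ ν (σ i) (σ' i) : ℝ) : ℂ) * M σ' σ' := by
  simp only [qubitPower, Matrix.of_apply, qubitCoeff_gad_diag]
  refine Finset.sum_congr rfl fun σ' _ => ?_
  rw [Finset.sum_eq_single σ']
  · simp
  · intro τ _ hτ
    obtain ⟨i, hi⟩ := Function.ne_iff.1 hτ
    rw [Finset.prod_eq_zero (Finset.mem_univ i) (by rw [if_neg (Ne.symm hi)]), zero_mul]
  · simp

lemma mpop_qubitPower (γ ν : ℝ) {n : ℕ} (M : Matrix (Fin n → Bool) (Fin n → Bool) ℂ)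
    (i : Fin n) :
    mpop (qubitPower n (gadMap γ ν) M) i = γ * ν * M.trace.re + (1 - γ) * mpop M i := by
  have h1 : ∀ σ : Fin n → Bool, (qubitPower n (gadMap γ ν) M σ σ).re
      = ∑ σ' : Fin n → Bool, (∏ i, tco γ ν (σ i) (σ' i)) * (M σ' σ').re := by
    intro σ
    rw [qubitPower_diag, Complex.re_sum]
    exact Finset.sum_congr rfl fun σ' _ => by rw [Complex.re_ofReal_mul]
  have h2 : mpop (qubitPower n (gadMap γ ν) M) i
      = ∑ σ' : Fin n → Bool, (∑ σ : Fin n → Bool,
          (∏ j, tco γ ν (σ j) (σ' j)) * (if σ i then 1 else 0)) * (M σ' σ').re := by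
    simp only [mpop, pop, h1]
    simp_rw [Finset.sum_mul]
    rw [Finset.sum_comm]
    refine Finset.sum_congr rfl fun σ _ => ?_
    split_ifs
    · exact Finset.sum_congr rfl fun σ' _ => by ring
    · simp
  have h3 : ∀ σ' : Fin n → Bool, (∑ σ : Fin n → Bool,
      (∏ j, tco γ ν (σ j) (σ' j)) * (if σ i then (1 : ℝ) else 0))
      = γ * ν + (1 - γ) * (if σ' i then 1 else 0) := by
    intro σ'
    rw [sum_prod_mul_single (fun j b => tco γ ν b (σ' j)) i (fun b => if b then (1 : ℝ) else 0)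
      (fun j => tco_sum γ ν (σ' j))]
    cases σ' i <;> simp [tco]
    ring
  rw [h2]
  simp_rw [h3]
  rw [← sum_diag_re, mpop, pop, Finset.mul_sum, Finset.mul_sum, ← Finset.sum_add_distrib]
  refine Finset.sum_congr rfl fun σ _ => ?_
  split_ifs <;> ring

lemma isDensity_avg {d : Type*} [Fintype d] {m : ℕ} {q : Fin m → ℝ}
    {ρ : Fin m → Matrix d d ℂ} (h : IsEnsemble q ρ) : IsDensity (∑ a, (q a : ℂ) • ρ a) := by
  refine ⟨Matrix.posSemidef_sum _ fun a _ => (h.2.2 a).1.smul (by exact_mod_cast h.1 a), ?_⟩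
  rw [trace_sum]
  simp_rw [trace_smul, (h.2.2 _).2, smul_eq_mul, mul_one]
  rw [← Complex.ofReal_sum, h.2.1, Complex.ofReal_one]

lemma linear_avg {d e : Type*} {m : ℕ}
    {Φ : Matrix d d ℂ → Matrix e e ℂ} (h : IsLinearMap ℂ Φ) (q : Fin m → ℝ)
    (ρ : Fin m → Matrix d d ℂ) :
    ∑ a, (q a : ℂ) • Φ (ρ a) = Φ (∑ a, (q a : ℂ) • ρ a) := by
  have := map_sum (h.mk' Φ) (fun a => (q a : ℂ) • ρ a) Finset.univ
  simp only [IsLinearMap.mk'_apply] at this
  rw [this]
  exact Finset.sum_congr rfl fun a _ => (h.map_smul _ _).symm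

theorem holevo_upper {γ ν : ℝ} (hγ : γ ∈ Set.Icc (0 : ℝ) 1) (hν : ν ∈ Set.Icc (0 : ℝ) 1)
    (hK : KeyIneq γ ν) (hconv : ConvexOn ℝ (Set.Icc 0 1) (fOut γ ν)) (n : ℕ) (hn : 1 ≤ n)
    (m : ℕ) (q : Fin m → ℝ) (ρ : Fin m → Matrix (Fin n → Bool) (Fin n → Bool) ℂ)
    (h : IsEnsemble q ρ) :
    ∃ p ∈ Set.Icc (0 : ℝ) 1, holevoInfo (qubitPower n (gadMap γ ν)) q ρ ≤ n * gadRate γ ν p := by
  have hc := qubitPower_isChannel hγ hν n
  set Φ := qubitPower n (gadMap γ ν) with hΦ
  set R := ∑ a, (q a : ℂ) • ρ a with hR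
  have hRd : IsDensity R := isDensity_avg h
  have hRp : ∀ i, mpop R i ∈ Set.Icc (0 : ℝ) 1 := fun i =>
    ⟨mpop_nonneg hRd.1 i, by have := mpop_le_trace hRd.1 i; rwa [hRd.2, Complex.one_re] at this⟩
  have hap : ∀ a i, mpop (ρ a) i ∈ Set.Icc (0 : ℝ) 1 := fun a i =>
    ⟨mpop_nonneg (h.2.2 a).1 i, by
      have := mpop_le_trace (h.2.2 a).1 i
      rwa [(h.2.2 a).2, Complex.one_re] at this⟩
  have hRi : ∀ i, mpop R i = ∑ a, q a * mpop (ρ a) i := by
    intro i
    rw [hR, mpop_sum]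
    exact Finset.sum_congr rfl fun a _ => mpop_smul _ _ _
  -- entropy of the average
  have h1 : vnEntropy (∑ a, (q a : ℂ) • Φ (ρ a))
      ≤ ∑ i, Real.binEntropy ((1 - γ) * mpop R i + γ * ν) := by
    rw [linear_avg hc.1, ← hR]
    have h2 := vnEntropy_le_bits (psd_of_cp hc.2.1 hRd.1) (by rw [hc.2.2, hRd.2])
    refine h2.trans (le_of_eq (Finset.sum_congr rfl fun i _ => ?_))
    have h3 := mpop_qubitPower γ ν R i
    rw [hRd.2, Complex.one_re] at h3
    rw [← hΦ] at h3
    change Real.binEntropy (mpop (Φ R) i) = _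
    rw [h3]
    congr 1
    ring
  -- average of the entropies
  have h2 : ∑ i, fOut γ ν (mpop R i) ≤ ∑ a, q a * vnEntropy (Φ (ρ a)) := by
    have h3 : ∀ a, q a * ∑ i, fOut γ ν (mpop (ρ a) i) ≤ q a * vnEntropy (Φ (ρ a)) := fun a =>
      mul_le_mul_of_nonneg_left (qp_entropy_lower hγ hν hK hconv n (ρ a) (h.2.2 a)) (h.1 a)
    refine le_trans ?_ (Finset.sum_le_sum fun a _ => h3 a)
    simp_rw [Finset.mul_sum]
    rw [Finset.sum_comm]
    refine Finset.sum_le_sum fun i _ => ?_
    have h4 := hconv.map_sum_le (t := Finset.univ) (w := q) (p := fun a => mpop (ρ a) i)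
      (fun a _ => h.1 a) h.2.1 (fun a _ => hap a i)
    simp only [smul_eq_mul] at h4
    rw [hRi]
    exact h4
  have h3 : holevoInfo Φ q ρ ≤ ∑ i, gadRate γ ν (mpop R i) := by
    rw [holevoInfo]
    simp_rw [gadRate_eq]
    rw [Finset.sum_sub_distrib]
    linarith
  have : Nonempty (Fin n) := ⟨⟨0, hn⟩⟩
  obtain ⟨i0, -, hi0⟩ := Finset.exists_max_image Finset.univ (fun i => gadRate γ ν (mpop R i))
    Finset.univ_nonempty
  refine ⟨mpop R i0, hRp i0, h3.trans ?_⟩
  have h4 := Finset.sum_le_card_nsmul Finset.univ (fun i => gadRate γ ν (mpop R i)) _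
    (fun i hi => hi0 i hi)
  simpa using h4

end Crest.Agent.R341
end

-- ▼ part R341/Glue534C

/-!
# Row 341: achievability in S0534
-/

set_option autoImplicit false
set_option linter.unusedSectionVars false

namespace Crest.Agent.R341

open Crest.Quantum Crest.MathPhysics.AmpDamp Matrix
open scoped ComplexOrder

/-- a linear map on one qubit through its transfer coefficients -/
lemma gadMap_coeff (γ ν : ℝ) (A : Matrix Bool Bool ℂ) (s t : Bool) :
    gadMap γ ν A s t = ∑ s', ∑ t', qubitCoeff (gadMap γ ν) s t s' t' * A s' t' := by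
  cases s <;> cases t <;>
    simp [qubitCoeff, gadMap_ff, gadMap_tt, gadMap_ft, gadMap_tf, Matrix.single] <;> ring

lemma qubitPower_prodMat (γ ν : ℝ) {n : ℕ} (A : Fin n → Matrix Bool Bool ℂ) :
    qubitPower n (gadMap γ ν) (prodMat A) = prodMat (fun i => gadMap γ ν (A i)) := by
  ext σ τ
  simp only [qubitPower, prodMat, Matrix.of_apply]
  simp_rw [← Finset.prod_mul_distrib]
  have h1 : ∀ i, gadMap γ ν (A i) (σ i) (τ i) = ∑ x ∈ (Finset.univ : Finset Bool),
      ∑ y ∈ (Finset.univ : Finset Bool),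
      qubitCoeff (gadMap γ ν) (σ i) (τ i) x y * A i x y := fun i => gadMap_coeff γ ν (A i) _ _
  simp_rw [h1]
  rw [Finset.prod_univ_sum, Fintype.piFinset_univ]
  refine Finset.sum_congr rfl fun σ' _ => ?_
  rw [Finset.prod_univ_sum, Fintype.piFinset_univ]

/-- the pure qubit states with excited population `p` and real coherence of both signs -/
noncomputable def psi (p : ℝ) (b : Bool) : Matrix Bool Bool ℂ :=
  Matrix.of fun s t =>
    if s = t then (if s then (p : ℂ) else ((1 - p : ℝ) : ℂ))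
    else (((if b then 1 else -1) * Real.sqrt (p * (1 - p)) : ℝ) : ℂ)

lemma psi_trace (p : ℝ) (b : Bool) : (psi p b).trace = 1 := by
  simp [psi, Matrix.trace]

lemma psi_posSemidef {p : ℝ} (hp : p ∈ Set.Icc (0 : ℝ) 1) (b : Bool) : (psi p b).PosSemidef := by
  set v : Bool → ℂ := fun s => if s then (((if b then 1 else -1) * Real.sqrt p : ℝ) : ℂ)
    else ((Real.sqrt (1 - p) : ℝ) : ℂ) with hv
  have h : psi p b = Matrix.vecMulVec v (star v) := by
    have hs : Real.sqrt (p * (1 - p)) = Real.sqrt p * Real.sqrt (1 - p) :=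
      Real.sqrt_mul hp.1 _
    have h1 : (Real.sqrt p : ℂ) * (Real.sqrt p : ℂ) = p := by
      rw [← Complex.ofReal_mul, Real.mul_self_sqrt hp.1]
    have h2 : (Real.sqrt (1 - p) : ℂ) * (Real.sqrt (1 - p) : ℂ) = 1 - p := by
      rw [← Complex.ofReal_mul, Real.mul_self_sqrt (by linarith [hp.2])]
      push_cast
      ring
    ext s t
    cases b <;> cases s <;> cases t <;>
      simp [psi, hv, Matrix.vecMulVec, hs, h1, h2] <;> ring
  rw [h]
  exact Matrix.posSemidef_vecMulVec_self_star v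

lemma gad_psi_trace (γ ν p : ℝ) (b : Bool) : (gadMap γ ν (psi p b)).trace = 1 := by
  rw [Matrix.trace, Fintype.sum_bool, diag_apply, diag_apply, gadMap_ff, gadMap_tt]
  simp [psi]
  ring

lemma gad_psi_det {γ ν p : ℝ} (hγ : γ ∈ Set.Icc (0 : ℝ) 1) (hp : p ∈ Set.Icc (0 : ℝ) 1)
    (b : Bool) :
    (gadMap γ ν (psi p b)).det.re = vOut γ ν p := by
  have hdet : (gadMap γ ν (psi p b)).det
      = gadMap γ ν (psi p b) false false * gadMap γ ν (psi p b) true true
        - gadMap γ ν (psi p b) false true * gadMap γ ν (psi p b) true false := by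
    rw [← Matrix.det_submatrix_equiv_self finTwoEquiv, Matrix.det_fin_two]
    rfl
  have h1 : Real.sqrt (1 - γ) * Real.sqrt (1 - γ) = 1 - γ :=
    Real.mul_self_sqrt (by linarith [hγ.2])
  have h2 : Real.sqrt (p * (1 - p)) * Real.sqrt (p * (1 - p)) = p * (1 - p) :=
    Real.mul_self_sqrt (mul_nonneg hp.1 (by linarith [hp.2]))
  have h3 : (gadMap γ ν (psi p b)).det = ((vOut γ ν p : ℝ) : ℂ) := by
    rw [hdet, gadMap_ff, gadMap_tt, gadMap_ft, gadMap_tf]
    have h4 : psi p b false true * psi p b true false = ((p * (1 - p) : ℝ) : ℂ) := by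
      have : psi p b false true * psi p b true false
          = ((((if b then 1 else -1) * (if b then 1 else -1)) *
              (Real.sqrt (p * (1 - p)) * Real.sqrt (p * (1 - p))) : ℝ) : ℂ) := by
        have e1 : psi p b false true
            = (((if b then 1 else -1) * Real.sqrt (p * (1 - p)) : ℝ) : ℂ) := by
          simp only [psi, Matrix.of_apply]
          rfl
        have e2 : psi p b true false
            = (((if b then 1 else -1) * Real.sqrt (p * (1 - p)) : ℝ) : ℂ) := by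
          simp only [psi, Matrix.of_apply]
          rfl
        rw [e1, e2]
        push_cast
        ring
      rw [this, h2]
      cases b <;> simp
    have h5 : (((Real.sqrt (1 - γ) : ℝ) : ℂ) * psi p b false true)
        * (((Real.sqrt (1 - γ) : ℝ) : ℂ) * psi p b true false)
        = ((((1 - γ) * (p * (1 - p))) : ℝ) : ℂ) := by
      rw [mul_mul_mul_comm, h4, ← Complex.ofReal_mul, h1, ← Complex.ofReal_mul]
    rw [h5]
    simp only [psi, Matrix.of_apply, if_true, vOut]
    simp only [Bool.false_eq_true, if_false]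
    push_cast
    ring
  rw [h3, Complex.ofReal_re]

lemma gad_psi_entropy {γ ν p : ℝ} (hγ : γ ∈ Set.Icc (0 : ℝ) 1) (hν : ν ∈ Set.Icc (0 : ℝ) 1)
    (hp : p ∈ Set.Icc (0 : ℝ) 1) (b : Bool) :
    vnEntropy (gadMap γ ν (psi p b)) = fOut γ ν p := by
  rw [vnEntropy_two (psd_of_cp (gadMap_isChannel hγ hν).2.1 (psi_posSemidef hp b))
    (gad_psi_trace γ ν p b), gad_psi_det hγ hp]
  rfl

theorem holevo_lower {γ ν : ℝ} (hγ : γ ∈ Set.Icc (0 : ℝ) 1) (hν : ν ∈ Set.Icc (0 : ℝ) 1)
    (n : ℕ) (p : ℝ) (hp : p ∈ Set.Icc (0 : ℝ) 1) :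
    ∃ (m : ℕ) (q : Fin m → ℝ) (ρ : Fin m → Matrix (Fin n → Bool) (Fin n → Bool) ℂ),
      IsEnsemble q ρ ∧ n * gadRate γ ν p ≤ holevoInfo (qubitPower n (gadMap γ ν)) q ρ := by
  set E := (Fintype.equivFin (Fin n → Bool)).symm with hE
  set R : (Fin n → Bool) → Matrix (Fin n → Bool) (Fin n → Bool) ℂ :=
    fun s => prodMat (fun i => psi p (s i)) with hR
  refine ⟨_, fun _ => ((2 : ℝ) ^ n)⁻¹, fun a => R (E a), ⟨?_, ?_, ?_⟩, ?_⟩
  · intro a; positivity
  · simp
  · intro a
    refine ⟨prodMat_posSemidef fun i => psi_posSemidef hp _, ?_⟩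
    rw [hR]
    simp only
    rw [prodMat_trace]
    simp [psi_trace]
  · rw [holevoInfo]
    have h1 : ∀ s, qubitPower n (gadMap γ ν) (R s) = prodMat (fun i => gadMap γ ν (psi p (s i))) :=
      fun s => qubitPower_prodMat γ ν _
    have hpsd : ∀ b, (gadMap γ ν (psi p b)).PosSemidef := fun b =>
      psd_of_cp (gadMap_isChannel hγ hν).2.1 (psi_posSemidef hp b)
    have h2 : ∀ s, vnEntropy (qubitPower n (gadMap γ ν) (R s)) = n * fOut γ ν p := by
      intro s
      rw [h1, vnEntropy_prodMat (fun i => hpsd _) (fun i => gad_psi_trace γ ν p _)]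
      simp [gad_psi_entropy hγ hν hp]
    set x := (1 - γ) * p + γ * ν with hx
    set D : Matrix Bool Bool ℂ := diagonal fun b => ((if b then x else 1 - x : ℝ) : ℂ) with hD
    have hD2 : ∀ s t, ∑ b, ((2 : ℝ)⁻¹ : ℂ) * gadMap γ ν (psi p b) s t = D s t := by
      intro s t
      rw [Fintype.sum_bool]
      cases s <;> cases t <;>
        simp [hD, gadMap_ff, gadMap_tt, gadMap_ft, gadMap_tf, psi, hx, diagonal] <;> ring
    have h3 : ∑ a, (((2 : ℝ) ^ n)⁻¹ : ℂ) • qubitPower n (gadMap γ ν) (R (E a))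
        = prodMat (fun _ : Fin n => D) := by
      rw [Equiv.sum_comp E (fun s => (((2 : ℝ) ^ n)⁻¹ : ℂ) • qubitPower n (gadMap γ ν) (R s))]
      ext σ τ
      simp only [h1, Matrix.sum_apply, Matrix.smul_apply, smul_eq_mul]
      simp only [prodMat, Matrix.of_apply]
      simp_rw [← hD2]
      rw [Finset.prod_univ_sum, Fintype.piFinset_univ]
      refine Finset.sum_congr rfl fun s _ => ?_
      rw [Finset.prod_mul_distrib]
      simp
    have hx01 : 0 ≤ x ∧ x ≤ 1 := by
      have a1 := hγ.1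
      have a2 := hγ.2
      have b1 := hν.1
      have b2 := hν.2
      have c1 := hp.1
      have c2 := hp.2
      constructor
      · have := mul_nonneg (sub_nonneg.2 a2) c1
        have := mul_nonneg a1 b1
        linarith
      · have := mul_nonneg (sub_nonneg.2 a2) (sub_nonneg.2 c2)
        have := mul_nonneg a1 (sub_nonneg.2 b2)
        rw [hx]
        nlinarith
    have hD0 : ∀ b : Bool, (0 : ℝ) ≤ (if b then x else 1 - x) := by
      intro b
      split_ifs
      · exact hx01.1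
      · linarith [hx01.2]
    have hDp : D.PosSemidef := by
      rw [hD, posSemidef_diagonal_iff]
      intro b
      exact_mod_cast hD0 b
    have hDt : D.trace = 1 := by
      rw [hD, trace_diagonal, Fintype.sum_bool]
      simp
    have hDe : vnEntropy D = Real.binEntropy x := by
      rw [hD, vnEntropy_diagonal hD0, Fintype.sum_bool,
        Real.binEntropy_eq_negMulLog_add_negMulLog_one_sub]
      simp
    simp only [h2]
    have h4 : ∑ a : Fin (Fintype.card (Fin n → Bool)),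
        (((((2 : ℝ) ^ n)⁻¹ : ℝ)) : ℂ) • qubitPower n (gadMap γ ν) (R (E a))
        = prodMat (fun _ : Fin n => D) := by
      rw [← h3]
      push_cast
      rfl
    rw [h4, vnEntropy_prodMat (fun _ => hDp) (fun _ => hDt), ← Finset.sum_mul, gadRate_eq]
    simp [hDe, hx]
    ring_nf
    rfl

/-- S0534, modulo the key inequality. -/
theorem s0534 {γ ν : ℝ} (hγ : γ ∈ Set.Icc (0 : ℝ) 1) (hν : ν ∈ Set.Icc (0 : ℝ) 1)
    (hK : KeyIneq γ ν) (n : ℕ) (hn : 1 ≤ n) :
    (∀ (m : ℕ) (q : Fin m → ℝ) (ρ : Fin m → Matrix (Fin n → Bool) (Fin n → Bool) ℂ),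
        IsEnsemble q ρ → ∃ p ∈ Set.Icc (0 : ℝ) 1,
          holevoInfo (qubitPower n (gadMap γ ν)) q ρ ≤ n * gadRate γ ν p) ∧
    (∀ p ∈ Set.Icc (0 : ℝ) 1, ∃ (m : ℕ) (q : Fin m → ℝ)
        (ρ : Fin m → Matrix (Fin n → Bool) (Fin n → Bool) ℂ),
        IsEnsemble q ρ ∧ n * gadRate γ ν p ≤ holevoInfo (qubitPower n (gadMap γ ν)) q ρ) :=
  ⟨fun m q ρ h => holevo_upper hγ hν hK (convexOn_fOut_aux hγ hν) n hn m q ρ h,
    fun p hp => holevo_lower hγ hν n p hp⟩

end Crest.Agent.R341
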