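import Crest.Agent.R341.Defs
import Crest.Agent.R341.TrfB
import Crest.Agent.R341.TwiseA
import Crest.Agent.R341.Ent3
import Crest.Agent.R341.Ent2
import Crest.Agent.R341.GlueA
import Crest.Agent.R341.Ent

-- ▼ part R341/TwiseB
section

/-! Row 341, task T4b: Schur-complement lower bound of `det (t + M)`. -/

namespace Crest.Agent.R341

open Matrix Crest.Quantum
open scoped ComplexOrder

variable {e : Type*} [Fintype e] [DecidableEq e]

/-- inversion is antitone on positive definite matrices -/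
theorem twb_posSemidef_inv_sub_inv {X Y : Matrix e e ℂ} (hX : X.PosDef)
    (hXY : (Y - X).PosSemidef) : (X⁻¹ - Y⁻¹).PosSemidef := by
  have hY : Y.PosDef := by
    have := hX.add_posSemidef hXY
    simpa using this
  have hXi : X⁻¹.PosDef := hX.inv
  have : Invertible X⁻¹ := hXi.isUnit.invertible
  have : Invertible Y := hY.isUnit.invertible
  have hdet : IsUnit X.det := (Matrix.isUnit_iff_isUnit_det _).1 hX.isUnit
  have h1 : (fromBlocks X⁻¹ (1 : Matrix e e ℂ) (1 : Matrix e e ℂ)ᴴ Y).PosSemidef := by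
    rw [PosDef.fromBlocks₁₁ 1 Y hXi]
    simpa [Matrix.nonsing_inv_nonsing_inv _ hdet] using hXY
  rw [PosDef.fromBlocks₂₂ X⁻¹ 1 hY] at h1
  simpa using h1

/-- `det (1 + K) ≥ 1` for positive semidefinite `K` -/
theorem twb_one_le_det_one_add {K : Matrix e e ℂ} (hK : K.PosSemidef) :
    1 ≤ (1 + K).det.re := by
  have hH : (1 + K).IsHermitian := Matrix.isHermitian_one.add hK.1
  rw [hH.det_eq_prod_eigenvalues]
  have h2 : ((∏ i, ((hH.eigenvalues i : ℝ) : ℂ))).re = ∏ i, hH.eigenvalues i := by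
    rw [← Complex.ofReal_prod, Complex.ofReal_re]
  have h3 : ∀ i, 1 ≤ hH.eigenvalues i := by
    intro i
    have h4 := hH.eigenvalues_eq i
    rw [h4, Matrix.add_mulVec, Matrix.one_mulVec, dotProduct_add, map_add]
    have h5 : RCLike.re (star (⇑(hH.eigenvectorBasis i)) ⬝ᵥ ⇑(hH.eigenvectorBasis i)) = 1 := by
      have h6 := hH.eigenvectorBasis.orthonormal.1 i
      have h7 : inner ℂ (hH.eigenvectorBasis i) (hH.eigenvectorBasis i) = (1 : ℂ) := by
        rw [inner_self_eq_norm_sq_to_K, h6]; simp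
      rw [EuclideanSpace.inner_eq_star_dotProduct] at h7
      rw [dotProduct_comm, h7]
      simp
    rw [h5]
    have h8 := hK.re_dotProduct_nonneg (⇑(hH.eigenvectorBasis i))
    linarith
  calc (1 : ℝ) = ∏ _i : e, (1 : ℝ) := by simp
    _ ≤ ∏ i, hH.eigenvalues i := Finset.prod_le_prod (fun _ _ => zero_le_one) (fun i _ => h3 i)
    _ = _ := h2.symm

open scoped MatrixOrder in
/-- monotonicity of the determinant on positive definite matrices -/
theorem twb_det_re_le_det_re {X Y : Matrix e e ℂ} (hX : X.PosDef)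
    (hXY : (Y - X).PosSemidef) : X.det.re ≤ Y.det.re := by
  classical
  obtain ⟨R, hRh, hRX⟩ : ∃ R : Matrix e e ℂ, Rᴴ = R ∧ R * R = X :=
    ⟨CFC.sqrt X, (CFC.sqrt_nonneg X).posSemidef.1, CFC.sqrt_mul_sqrt_self X hX.posSemidef.nonneg⟩
  have hdX : X.det = ((X.det.re : ℝ) : ℂ) := by
    have h := hX.det_pos
    rw [Complex.lt_def] at h
    apply Complex.ext
    · simp
    · simpa using h.2.symm
  have hdXpos : 0 < X.det.re := by
    have h := hX.det_pos
    rw [Complex.lt_def] at h
    simpa using h.1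
  have hdR : IsUnit R.det := by
    rw [isUnit_iff_ne_zero]
    intro h
    have : X.det = 0 := by rw [← hRX, det_mul, h, zero_mul]
    rw [this] at hdXpos
    simp at hdXpos
  have hRi : R⁻¹ᴴ = R⁻¹ := by rw [conjTranspose_nonsing_inv, hRh]
  have hK' : (R⁻¹ * (Y - X) * R⁻¹).PosSemidef := by
    have := hXY.mul_mul_conjTranspose_same R⁻¹
    rwa [hRi] at this
  have hY : Y = R * (1 + R⁻¹ * (Y - X) * R⁻¹) * R := by
    have h1 : R * (R⁻¹ * (Y - X) * R⁻¹) * R = (R * R⁻¹) * (Y - X) * (R⁻¹ * R) := by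
      simp only [Matrix.mul_assoc]
    rw [Matrix.mul_add, Matrix.add_mul, h1, Matrix.mul_nonsing_inv _ hdR,
      Matrix.nonsing_inv_mul _ hdR, Matrix.mul_one, hRX, Matrix.one_mul, Matrix.mul_one]
    abel
  have hdY : Y.det = X.det * (1 + R⁻¹ * (Y - X) * R⁻¹).det := by
    conv_lhs => rw [hY, det_mul, det_mul]
    rw [← hRX, det_mul]
    ring
  rw [hdY, hdX, Complex.re_ofReal_mul, Complex.ofReal_re]
  have := twb_one_le_det_one_add hK'
  nlinarith

omit [Fintype e] in
theorem twb_posDef_smul_one {t : ℝ} (ht : 0 < t) : ((t : ℂ) • (1 : Matrix e e ℂ)).PosDef := by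
  have : (0 : ℂ) < (t : ℂ) := by exact_mod_cast ht
  exact Matrix.PosDef.one.smul this

/-- `A⁻¹ = A^{-1/2} A^{-1/2}` -/
theorem twb_inv_diag_eq {a : e → ℝ} (ha : ∀ i, 0 < a i) :
    (Matrix.diagonal (fun i => (a i : ℂ)))⁻¹ =
      Matrix.diagonal (fun i => (((Real.sqrt (a i))⁻¹ : ℝ) : ℂ)) *
        Matrix.diagonal (fun i => (((Real.sqrt (a i))⁻¹ : ℝ) : ℂ)) := by
  apply Matrix.inv_eq_right_inv
  rw [Matrix.diagonal_mul_diagonal, Matrix.diagonal_mul_diagonal, ← Matrix.diagonal_one]
  congr 1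
  funext i
  have h1 : Real.sqrt (a i) ≠ 0 := (Real.sqrt_pos.2 (ha i)).ne'
  have h2 : Real.sqrt (a i) * Real.sqrt (a i) = a i := Real.mul_self_sqrt (ha i).le
  have h3 : a i * ((Real.sqrt (a i))⁻¹ * (Real.sqrt (a i))⁻¹) = 1 := by
    field_simp
    rw [sq, h2]
  exact_mod_cast h3

omit [Fintype e] in
theorem twb_posDef_diag {a : e → ℝ} (ha : ∀ i, 0 < a i) :
    (Matrix.diagonal (fun i => (a i : ℂ))).PosDef := by
  rw [Matrix.posDef_diagonal_iff]
  intro i
  exact_mod_cast ha i

/-- the Schur complement, `N = A^{-1/2} B` -/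
theorem twb_schur_posSemidef {a : e → ℝ} (ha : ∀ i, 0 < a i) {B C : Matrix e e ℂ}
    (hP : (Matrix.fromBlocks (Matrix.diagonal (fun i => (a i : ℂ))) B Bᴴ C).PosSemidef) :
    (C - (Matrix.diagonal (fun i => (((Real.sqrt (a i))⁻¹ : ℝ) : ℂ)) * B)ᴴ *
      (Matrix.diagonal (fun i => (((Real.sqrt (a i))⁻¹ : ℝ) : ℂ)) * B)).PosSemidef := by
  have hA := twb_posDef_diag ha
  have : Invertible (Matrix.diagonal (fun i => (a i : ℂ))) := hA.isUnit.invertible
  rw [PosDef.fromBlocks₁₁ B C hA, twb_inv_diag_eq ha] at hP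
  rw [conjTranspose_mul, diagonal_conjTranspose]
  have h1 : star (fun i => (((Real.sqrt (a i))⁻¹ : ℝ) : ℂ)) =
      fun i => (((Real.sqrt (a i))⁻¹ : ℝ) : ℂ) := by
    funext i
    simp
  rw [h1]
  simpa only [Matrix.mul_assoc] using hP

/-- `Tr C' ≤ Tr C` -/
theorem trace_schur_le {a : e → ℝ} (ha : ∀ i, 0 < a i) {B C : Matrix e e ℂ}
    (hP : (Matrix.fromBlocks (Matrix.diagonal (fun i => (a i : ℂ))) B Bᴴ C).PosSemidef) :
    ∑ i, ((B * Bᴴ) i i).re / a i ≤ C.trace.re := by
  have h := twb_schur_posSemidef ha hP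
  set Si := Matrix.diagonal (fun i => (((Real.sqrt (a i))⁻¹ : ℝ) : ℂ)) with hSi
  have h1 := h.trace_nonneg
  rw [trace_sub, trace_mul_comm] at h1
  have h2 : (0 : ℝ) ≤ (C.trace - ((Si * B) * (Si * B)ᴴ).trace).re := by
    rw [Complex.le_def] at h1
    simpa using h1.1
  have h3 : (((Si * B) * (Si * B)ᴴ).trace).re = ∑ i, ((B * Bᴴ) i i).re / a i := by
    rw [Matrix.trace, Complex.re_sum]
    apply Finset.sum_congr rfl
    intro i _
    have h4 : ((Si * B) * (Si * B)ᴴ) = Si * (B * Bᴴ) * Si := by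
      rw [conjTranspose_mul, hSi, diagonal_conjTranspose]
      have h1 : star (fun i => (((Real.sqrt (a i))⁻¹ : ℝ) : ℂ)) =
          fun i => (((Real.sqrt (a i))⁻¹ : ℝ) : ℂ) := by
        funext i
        simp
      rw [h1]
      simp only [Matrix.mul_assoc]
    rw [h4, Matrix.diag_apply, hSi, Matrix.mul_diagonal, Matrix.diagonal_mul]
    have h5 : (((Real.sqrt (a i))⁻¹ : ℝ) : ℂ) * (B * Bᴴ) i i * (((Real.sqrt (a i))⁻¹ : ℝ) : ℂ)
        = (((Real.sqrt (a i))⁻¹ * (Real.sqrt (a i))⁻¹ : ℝ) : ℂ) * (B * Bᴴ) i i := by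
      push_cast; ring
    rw [h5, Complex.re_ofReal_mul, ← mul_inv, Real.mul_self_sqrt (ha i).le, inv_mul_eq_div]
  rw [Complex.sub_re, h3] at h2
  linarith

/-- push-through identity -/
theorem twb_push_through {t : ℝ} (ht : 0 < t) (N : Matrix e e ℂ) :
    (t : ℂ) • ((t : ℂ) • (1 : Matrix e e ℂ) + N * Nᴴ)⁻¹ =
      1 - N * ((t : ℂ) • (1 : Matrix e e ℂ) + Nᴴ * N)⁻¹ * Nᴴ := by
  have h1 : ((t : ℂ) • (1 : Matrix e e ℂ) + N * Nᴴ).PosDef :=
    (twb_posDef_smul_one ht).add_posSemidef (posSemidef_self_mul_conjTranspose N)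
  have h2 : ((t : ℂ) • (1 : Matrix e e ℂ) + Nᴴ * N).PosDef :=
    (twb_posDef_smul_one ht).add_posSemidef (posSemidef_conjTranspose_mul_self N)
  have hd1 := (Matrix.isUnit_iff_isUnit_det _).1 h1.isUnit
  have hd2 := (Matrix.isUnit_iff_isUnit_det _).1 h2.isUnit
  set P := (t : ℂ) • (1 : Matrix e e ℂ) + N * Nᴴ with hPdef
  set Q := (t : ℂ) • (1 : Matrix e e ℂ) + Nᴴ * N with hQdef
  have h3 : P * N = N * Q := by
    rw [hPdef, hQdef, Matrix.add_mul, Matrix.mul_add, Matrix.smul_mul, Matrix.mul_smul,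
      Matrix.one_mul, Matrix.mul_one, Matrix.mul_assoc]
  have h4 : P * (1 - N * Q⁻¹ * Nᴴ) = (t : ℂ) • (1 : Matrix e e ℂ) := by
    have h5 : P * (N * Q⁻¹ * Nᴴ) = N * Nᴴ := by
      rw [← Matrix.mul_assoc, ← Matrix.mul_assoc, h3, Matrix.mul_assoc N Q, 
        Matrix.mul_nonsing_inv _ hd2, Matrix.mul_one]
    rw [Matrix.mul_sub, Matrix.mul_one, h5, hPdef]
    abel
  calc (t : ℂ) • P⁻¹ = P⁻¹ * ((t : ℂ) • (1 : Matrix e e ℂ)) := by
        rw [Matrix.mul_smul, Matrix.mul_one]
    _ = P⁻¹ * (P * (1 - N * Q⁻¹ * Nᴴ)) := by rw [h4]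
    _ = 1 - N * Q⁻¹ * Nᴴ := by
        rw [← Matrix.mul_assoc, Matrix.nonsing_inv_mul _ hd1, Matrix.one_mul]

/-- lower bound of `det (t + M)`, `M = [[A + D, B], [Bᴴ, C]]`, `A = diag a > 0`;
`C' = A^{-1/2} B Bᴴ A^{-1/2}`. -/
theorem det_shift_ge {a : e → ℝ} (ha : ∀ i, 0 < a i) {B C D : Matrix e e ℂ}
    (hP : (Matrix.fromBlocks (Matrix.diagonal (fun i => (a i : ℂ))) B Bᴴ C).PosSemidef)
    (hD : D.PosSemidef) {t : ℝ} (ht : 0 < t) :
    Real.log ((t : ℂ) • (1 : Matrix e e ℂ) + C).det.re +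
      Real.log ((t : ℂ) • (1 : Matrix e e ℂ) + D +
        Matrix.diagonal (fun i => ((Real.sqrt (t * a i) : ℝ) : ℂ)) *
          ((t : ℂ) • (1 : Matrix e e ℂ) +
            Matrix.diagonal (fun i => (((Real.sqrt (a i))⁻¹ : ℝ) : ℂ)) * (B * Bᴴ) *
              Matrix.diagonal (fun i => (((Real.sqrt (a i))⁻¹ : ℝ) : ℂ)))⁻¹ *
          Matrix.diagonal (fun i => ((Real.sqrt (t * a i) : ℝ) : ℂ))).det.re ≤
    Real.log ((t : ℂ) • (1 : Matrix (e ⊕ e) (e ⊕ e) ℂ) +
      Matrix.fromBlocks (Matrix.diagonal (fun i => (a i : ℂ)) + D) B Bᴴ C).det.re := by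
  have hS := twb_schur_posSemidef ha hP
  set Si := Matrix.diagonal (fun i => (((Real.sqrt (a i))⁻¹ : ℝ) : ℂ)) with hSi
  set N := Si * B with hN
  have hSiH : Siᴴ = Si := by
    rw [hSi, diagonal_conjTranspose]
    congr 1
    funext i
    simp
  have hNN : Si * (B * Bᴴ) * Si = N * Nᴴ := by
    rw [hN, conjTranspose_mul, hSiH]
    simp only [Matrix.mul_assoc]
  rw [hNN]
  set S : Matrix e e ℂ := Matrix.diagonal (fun i => ((Real.sqrt (a i) : ℝ) : ℂ)) with hSdef
  have hSt : Matrix.diagonal (fun i => ((Real.sqrt (t * a i) : ℝ) : ℂ)) =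
      ((Real.sqrt t : ℝ) : ℂ) • S := by
    rw [hSdef]
    ext i j
    by_cases hij : i = j
    · subst hij
      simp [Real.sqrt_mul ht.le]
    · simp [hij]
  rw [hSt]
  have hSH : Sᴴ = S := by
    rw [hSdef, diagonal_conjTranspose]
    congr 1
    funext i
    simp
  have hSSi : S * Si = 1 := by
    rw [hSdef, hSi, Matrix.diagonal_mul_diagonal, ← Matrix.diagonal_one]
    congr 1
    funext i
    have h1 : Real.sqrt (a i) ≠ 0 := (Real.sqrt_pos.2 (ha i)).ne'
    have h3 : Real.sqrt (a i) * (Real.sqrt (a i))⁻¹ = 1 := mul_inv_cancel₀ h1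
    exact_mod_cast h3
  have hSS : S * S = Matrix.diagonal (fun i => (a i : ℂ)) := by
    rw [hSdef, Matrix.diagonal_mul_diagonal]
    congr 1
    funext i
    have h3 : Real.sqrt (a i) * Real.sqrt (a i) = a i := Real.mul_self_sqrt (ha i).le
    exact_mod_cast h3
  have hSN : S * N = B := by
    rw [hN, ← Matrix.mul_assoc, hSSi, Matrix.one_mul]
  have hNS : Nᴴ * S = Bᴴ := by
    have h1 : (S * N)ᴴ = Nᴴ * Sᴴ := conjTranspose_mul _ _
    rw [hSH, hSN] at h1
    exact h1.symm
  have hCP : C.PosSemidef := by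
    have : C = (C - Nᴴ * N) + Nᴴ * N := by abel
    rw [this]
    exact hS.add (posSemidef_conjTranspose_mul_self N)
  have hG : ((t : ℂ) • (1 : Matrix e e ℂ) + C).PosDef := (twb_posDef_smul_one ht).add_posSemidef hCP
  have hH : ((t : ℂ) • (1 : Matrix e e ℂ) + Nᴴ * N).PosDef :=
    (twb_posDef_smul_one ht).add_posSemidef (posSemidef_conjTranspose_mul_self N)
  have hL : ((t : ℂ) • (1 : Matrix e e ℂ) + N * Nᴴ).PosDef :=
    (twb_posDef_smul_one ht).add_posSemidef (posSemidef_self_mul_conjTranspose N)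
  have hGH : (((t : ℂ) • (1 : Matrix e e ℂ) + Nᴴ * N)⁻¹ -
      ((t : ℂ) • (1 : Matrix e e ℂ) + C)⁻¹).PosSemidef := by
    apply twb_posSemidef_inv_sub_inv hH
    have : (t : ℂ) • (1 : Matrix e e ℂ) + C - ((t : ℂ) • (1 : Matrix e e ℂ) + Nᴴ * N)
        = C - Nᴴ * N := by abel
    rw [this]
    exact hS
  have hst : ((Real.sqrt t : ℝ) : ℂ) * ((Real.sqrt t : ℝ) : ℂ) = (t : ℂ) := by
    exact_mod_cast Real.mul_self_sqrt ht.le
  have hW : (t : ℂ) • (1 : Matrix e e ℂ) + D +
      ((Real.sqrt t : ℝ) : ℂ) • S * ((t : ℂ) • (1 : Matrix e e ℂ) + N * Nᴴ)⁻¹ *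
        ((Real.sqrt t : ℝ) : ℂ) • S =
      (t : ℂ) • (1 : Matrix e e ℂ) + (Matrix.diagonal (fun i => (a i : ℂ)) + D) -
        B * ((t : ℂ) • (1 : Matrix e e ℂ) + Nᴴ * N)⁻¹ * Bᴴ := by
    have h1 : ((Real.sqrt t : ℝ) : ℂ) • S * ((t : ℂ) • (1 : Matrix e e ℂ) + N * Nᴴ)⁻¹ *
        ((Real.sqrt t : ℝ) : ℂ) • S =
        S * ((t : ℂ) • ((t : ℂ) • (1 : Matrix e e ℂ) + N * Nᴴ)⁻¹) * S := by
      rw [Matrix.smul_mul, Matrix.smul_mul, Matrix.mul_smul, smul_smul, hst, Matrix.mul_smul,
        Matrix.smul_mul]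
    rw [h1, twb_push_through ht N, Matrix.mul_sub, Matrix.sub_mul, Matrix.mul_one, hSS]
    have h2 : S * (N * ((t : ℂ) • (1 : Matrix e e ℂ) + Nᴴ * N)⁻¹ * Nᴴ) * S =
        (S * N) * ((t : ℂ) • (1 : Matrix e e ℂ) + Nᴴ * N)⁻¹ * (Nᴴ * S) := by
      simp only [Matrix.mul_assoc]
    rw [h2, hSN, hNS]
    abel
  have hWpos : ((t : ℂ) • (1 : Matrix e e ℂ) + D +
      ((Real.sqrt t : ℝ) : ℂ) • S * ((t : ℂ) • (1 : Matrix e e ℂ) + N * Nᴴ)⁻¹ *
        ((Real.sqrt t : ℝ) : ℂ) • S).PosDef := by
    apply ((twb_posDef_smul_one ht).add_posSemidef hD).add_posSemidef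
    have h1 := hL.inv.posSemidef.mul_mul_conjTranspose_same (((Real.sqrt t : ℝ) : ℂ) • S)
    have h2 : (((Real.sqrt t : ℝ) : ℂ) • S)ᴴ = ((Real.sqrt t : ℝ) : ℂ) • S := by
      rw [conjTranspose_smul, hSH]
      simp
    rwa [h2] at h1
  have hVW : ((t : ℂ) • (1 : Matrix e e ℂ) + (Matrix.diagonal (fun i => (a i : ℂ)) + D) -
      B * ((t : ℂ) • (1 : Matrix e e ℂ) + C)⁻¹ * Bᴴ -
      ((t : ℂ) • (1 : Matrix e e ℂ) + D +
      ((Real.sqrt t : ℝ) : ℂ) • S * ((t : ℂ) • (1 : Matrix e e ℂ) + N * Nᴴ)⁻¹ *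
        ((Real.sqrt t : ℝ) : ℂ) • S)).PosSemidef := by
    rw [hW]
    have h1 := hGH.mul_mul_conjTranspose_same B
    rw [Matrix.mul_sub, Matrix.sub_mul] at h1
    convert h1 using 1
    abel
  have hdet := twb_det_re_le_det_re hWpos hVW
  have hdG : 0 < ((t : ℂ) • (1 : Matrix e e ℂ) + C).det.re := by
    have h := hG.det_pos
    rw [Complex.lt_def] at h
    simpa using h.1
  have hdGr : ((t : ℂ) • (1 : Matrix e e ℂ) + C).det =
      ((((t : ℂ) • (1 : Matrix e e ℂ) + C).det.re : ℝ) : ℂ) := by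
    have h := hG.det_pos
    rw [Complex.lt_def] at h
    apply Complex.ext
    · simp
    · simpa using h.2.symm
  have hdW : 0 < ((t : ℂ) • (1 : Matrix e e ℂ) + D +
      ((Real.sqrt t : ℝ) : ℂ) • S * ((t : ℂ) • (1 : Matrix e e ℂ) + N * Nᴴ)⁻¹ *
        ((Real.sqrt t : ℝ) : ℂ) • S).det.re := by
    have h := hWpos.det_pos
    rw [Complex.lt_def] at h
    simpa using h.1
  have hblock : (t : ℂ) • (1 : Matrix (e ⊕ e) (e ⊕ e) ℂ) +
      Matrix.fromBlocks (Matrix.diagonal (fun i => (a i : ℂ)) + D) B Bᴴ C =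
      Matrix.fromBlocks ((t : ℂ) • (1 : Matrix e e ℂ) +
        (Matrix.diagonal (fun i => (a i : ℂ)) + D)) B Bᴴ ((t : ℂ) • (1 : Matrix e e ℂ) + C) := by
    rw [← Matrix.fromBlocks_one, Matrix.fromBlocks_smul, Matrix.fromBlocks_add]
    simp
  have : Invertible ((t : ℂ) • (1 : Matrix e e ℂ) + C) := hG.isUnit.invertible
  rw [hblock, Matrix.det_fromBlocks₂₂, Matrix.invOf_eq_nonsing_inv, hdGr,
    Complex.re_ofReal_mul, Complex.ofReal_re, Real.log_mul hdG.ne' (lt_of_lt_of_le hdW hdet).ne']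
  exact add_le_add_right (Real.log_le_log hdW hdet) _

end Crest.Agent.R341
end

-- ▼ part R341/TwiseD
section

/-! Row 341, assembling the `t`-wise inequality (final version). -/

namespace Crest.Agent.R341

open Matrix Crest.Quantum
open scoped ComplexOrder

variable {e : Type*} [Fintype e] [DecidableEq e]

omit [Fintype e] in
lemma posDef_smul_one_add {t : ℝ} (ht : 0 < t) {A : Matrix e e ℂ} (hA : A.PosSemidef) :
    ((t : ℂ) • (1 : Matrix e e ℂ) + A).PosDef := by
  refine Matrix.PosDef.add_posSemidef ?_ hA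
  exact Matrix.PosDef.one.smul (by exact_mod_cast ht)

lemma trf_log_shift {t : ℝ} (ht : 0 < t) {A : Matrix e e ℂ} (hA : A.PosSemidef) :
    trf (fun x => Real.log (t + x)) A = Real.log ((t : ℂ) • (1 : Matrix e e ℂ) + A).det.re := by
  exact trf_log_shift' ht hA

/-- the `t`-wise inequality in final scalar form -/
theorem twise {a : e → ℝ} (ha : ∀ i, 0 < a i) {B C D : Matrix e e ℂ}
    (hP : (Matrix.fromBlocks (Matrix.diagonal (fun i => (a i : ℂ))) B Bᴴ C).PosSemidef)
    (hD : D.PosSemidef) {y z : ℝ} (hy : 0 < y) (hz : 0 < z) {t : ℝ} (ht : 0 < t) :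
    trf (fun x => Real.log (t + x)) C + trf (fun x => Real.log (t + x)) D +
      ∑ i, (Real.log (1 + t * a i / ((t + y * a i) * (t + z * a i))) -
        t * a i / ((t + y * a i) * (t + z * a i) + t * a i) *
          (((D i i).re - y * a i) / (t + y * a i) +
            (((B * Bᴴ) i i).re / a i - z * a i) / (t + z * a i))) ≤
    trf (fun x => Real.log (t + x))
      (Matrix.fromBlocks (Matrix.diagonal (fun i => (a i : ℂ)) + D) B Bᴴ C) := by
  have hC : C.PosSemidef := by
    have := hP.submatrix (Sum.inr : e → e ⊕ e)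
    have h2 : (Matrix.fromBlocks (Matrix.diagonal (fun i => (a i : ℂ))) B Bᴴ C).submatrix
        (Sum.inr : e → e ⊕ e) Sum.inr = C := by
      ext i j
      simp
    rwa [h2] at this
  have hM : (Matrix.fromBlocks (Matrix.diagonal (fun i => (a i : ℂ)) + D) B Bᴴ C).PosSemidef := by
    have h1 : (Matrix.fromBlocks D 0 0 (0 : Matrix e e ℂ)).PosSemidef := by
      have := hD.conjTranspose_mul_mul_same (Matrix.fromCols (1 : Matrix e e ℂ) (0 : Matrix e e ℂ))
      convert this using 1
      ext i j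
      rcases i with i | i <;> rcases j with j | j <;>
        simp [Matrix.mul_apply, Matrix.fromCols, Matrix.one_apply]
    have h2 := hP.add h1
    convert h2 using 1
    ext i j
    rcases i with i | i <;> rcases j with j | j <;> simp
  rw [trf_log_shift ht hC, trf_log_shift ht hD, trf_log_shift ht hM]
  have h1 := det_shift_ge ha hP hD ht
  set C' : Matrix e e ℂ := Matrix.diagonal (fun i => (((Real.sqrt (a i))⁻¹ : ℝ) : ℂ)) * (B * Bᴴ) *
              Matrix.diagonal (fun i => (((Real.sqrt (a i))⁻¹ : ℝ) : ℂ)) with hC'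
  have hC'P : C'.PosSemidef := by
    have := (Matrix.posSemidef_self_mul_conjTranspose B).mul_mul_conjTranspose_same
      (Matrix.diagonal (fun i => (((Real.sqrt (a i))⁻¹ : ℝ) : ℂ)))
    rw [Matrix.diagonal_conjTranspose] at this
    have h2 : (star fun i => (((Real.sqrt (a i))⁻¹ : ℝ) : ℂ)) =
        fun i => (((Real.sqrt (a i))⁻¹ : ℝ) : ℂ) := by
      funext i
      simp
    rwa [h2] at this
  have h2 := logdet_tangent (posDef_smul_one_add ht hD) (posDef_smul_one_add ht hC'P)
    (k := fun i => Real.sqrt (t * a i)) (p := fun i => t + y * a i) (q := fun i => t + z * a i)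
    (fun i => Real.sqrt_pos.2 (mul_pos ht (ha i)))
    (fun i => by have := ha i; positivity) (fun i => by have := ha i; positivity)
  refine le_trans ?_ h1
  rw [add_assoc]
  refine add_le_add_right ?_ _
  refine le_trans (le_of_eq ?_) h2
  congr 1
  refine Finset.sum_congr rfl fun i _ => ?_
  have hai := ha i
  have hsq : Real.sqrt (t * a i) ^ 2 = t * a i := Real.sq_sqrt (by positivity)
  have hyp : 0 < t + y * a i := by positivity
  have hzp : 0 < t + z * a i := by positivity
  have hDi : (((t : ℂ) • (1 : Matrix e e ℂ) + D) i i).re = t + (D i i).re := by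
    simp
  have hCi : (((t : ℂ) • (1 : Matrix e e ℂ) + C') i i).re = t + ((B * Bᴴ) i i).re / a i := by
    have : C' i i = (((Real.sqrt (a i))⁻¹ : ℝ) : ℂ) * (B * Bᴴ) i i *
        (((Real.sqrt (a i))⁻¹ : ℝ) : ℂ) := by
      rw [hC', Matrix.mul_diagonal, Matrix.diagonal_mul]
    have h3 : C' i i = ((1 / a i : ℝ) : ℂ) * (B * Bᴴ) i i := by
      rw [this]
      have h4 : (1 / a i : ℝ) = (Real.sqrt (a i))⁻¹ * (Real.sqrt (a i))⁻¹ := by
        rw [← mul_inv, Real.mul_self_sqrt hai.le, one_div]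
      rw [h4]
      push_cast
      ring
    rw [Matrix.add_apply, Complex.add_re, h3, Complex.re_ofReal_mul]
    simp
    ring
  rw [hDi, hCi, hsq]
  congr 3
  · field_simp
    ring
  · field_simp
    ring

end Crest.Agent.R341
end

-- ▼ part R341/ScalarKey
section

/-! Row 341: integration over `t` (abstract scalar form of the 3-path inequality). -/

namespace Crest.Agent.R341

open Filter Topology Real

/-- `log (T + x) - log T → 0` -/
theorem tendsto_log_add_sub_log (x : ℝ) :
    Tendsto (fun T : ℝ => Real.log (T + x) - Real.log T) atTop (𝓝 0) := by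
  have h1 : Tendsto (fun T : ℝ => 1 + x / T) atTop (𝓝 (1 + 0)) :=
    tendsto_const_nhds.add (tendsto_const_nhds.div_atTop tendsto_id)
  have h2 : Tendsto (fun T : ℝ => Real.log (1 + x / T)) atTop (𝓝 (Real.log (1 + 0))) :=
    (Real.continuousAt_log (by norm_num)).tendsto.comp h1
  rw [add_zero, Real.log_one] at h2
  refine h2.congr' ?_
  filter_upwards [eventually_gt_atTop (max 0 (-x))] with T hT
  have hT0 : 0 < T := lt_of_le_of_lt (le_max_left _ _) hT
  have hTx : 0 < T + x := by
    have := lt_of_le_of_lt (le_max_right _ _) hT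
    linarith
  rw [← Real.log_div hTx.ne' hT0.ne']
  congr 1
  field_simp

theorem tendsto_mul_log_add_sub_log (x : ℝ) :
    Tendsto (fun T : ℝ => T * (Real.log (T + x) - Real.log T)) atTop (𝓝 x) := by
  have h := Real.tendsto_mul_log_one_add_div_atTop x
  refine h.congr' ?_
  filter_upwards [eventually_gt_atTop (max 0 (-x))] with T hT
  have hT0 : 0 < T := lt_of_le_of_lt (le_max_left _ _) hT
  have hTx : 0 < T + x := by
    have := lt_of_le_of_lt (le_max_right _ _) hT
    linarith
  rw [← Real.log_div hTx.ne' hT0.ne']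
  congr 2
  field_simp

/-- `η(T+x) - η(T) - x log T → x` with `η(u) = u log u` -/
theorem tendsto_eta (x : ℝ) :
    Tendsto (fun T : ℝ => (T + x) * Real.log (T + x) - T * Real.log T - x * Real.log T)
      atTop (𝓝 x) := by
  have h1 := tendsto_mul_log_add_sub_log x
  have h2 := (tendsto_log_add_sub_log x).const_mul x
  have h := h1.add h2
  rw [mul_zero, add_zero] at h
  refine h.congr ?_
  intro T
  ring


theorem hasDerivAt_eta (x T : ℝ) (h : 0 < T + x) :
    HasDerivAt (fun T : ℝ => (T + x) * Real.log (T + x)) (Real.log (T + x) + 1) T := by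
  have h1 : HasDerivAt (fun u : ℝ => u * Real.log u) (Real.log (T + x) + 1) (T + x) :=
    Real.hasDerivAt_mul_log h.ne'
  exact h1.comp_add_const T x

theorem hasDerivAt_logshift (x T : ℝ) (h : 0 < T + x) :
    HasDerivAt (fun T : ℝ => Real.log (T + x)) ((T + x)⁻¹) T := by
  have h1 : HasDerivAt (fun u : ℝ => Real.log u) ((T + x)⁻¹) (T + x) :=
    Real.hasDerivAt_log h.ne'
  exact h1.comp_add_const T x

/-- roots `p > q > 0` of `X² - (1+y+z) X + y z` -/
theorem exists_roots {y z : ℝ} (hy : 0 < y) (hz : 0 < z) :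
    ∃ p q : ℝ, 0 < q ∧ q < p ∧ p + q = 1 + y + z ∧ p * q = y * z ∧
      ent2 (1 + y + z) (y * z) = Real.negMulLog p + Real.negMulLog q := by
  have hdisc : 0 < (1 + y + z) ^ 2 - 4 * (y * z) := by nlinarith [sq_nonneg (y - z)]
  set r := Real.sqrt ((1 + y + z) ^ 2 - 4 * (y * z)) with hr
  have hr0 : 0 < r := Real.sqrt_pos.mpr hdisc
  have hr2 : r ^ 2 = (1 + y + z) ^ 2 - 4 * (y * z) := Real.sq_sqrt hdisc.le
  refine ⟨(1 + y + z + r) / 2, (1 + y + z - r) / 2, ?_, by linarith, by ring, ?_, rfl⟩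
  · have : r < 1 + y + z := by
      have h1 : r ^ 2 < (1 + y + z) ^ 2 := by rw [hr2]; nlinarith [mul_pos hy hz]
      exact lt_of_pow_lt_pow_left₀ 2 (by positivity) h1
    linarith
  · have : (1 + y + z + r) / 2 * ((1 + y + z - r) / 2) = ((1 + y + z) ^ 2 - r ^ 2) / 4 := by ring
    rw [this, hr2]; ring

/-- the auxiliary function `ω(T) = log(T+y a) - w₊ log(T+p a) - w₋ log(T + q a)` -/
noncomputable def om (y z p q a T : ℝ) : ℝ :=
  Real.log (T + y * a) - (p - z) / (p - q) * Real.log (T + p * a) -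
    (z - q) / (p - q) * Real.log (T + q * a)

theorem hasDerivAt_om {y z p q a T : ℝ} (hy : 0 < y) (hz : 0 < z) (hq : 0 < q) (hpq : q < p)
    (hs : p + q = 1 + y + z) (hm : p * q = y * z) (ha : 0 < a) (hT : 0 < T) :
    HasDerivAt (om y z p q a)
      (T * a / ((T + y * a) * (T + z * a) + T * a) / (T + y * a)) T := by
  have hp : 0 < p := hq.trans hpq
  have e1 : 0 < T + y * a := by positivity
  have e2 : 0 < T + z * a := by positivity
  have e3 : 0 < T + p * a := by positivity
  have e4 : 0 < T + q * a := by positivity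
  have hr : p - q ≠ 0 := (sub_pos.mpr hpq).ne'
  have h1 := hasDerivAt_logshift (y * a) T e1
  have h2 := (hasDerivAt_logshift (p * a) T e3).const_mul ((p - z) / (p - q))
  have h3 := (hasDerivAt_logshift (q * a) T e4).const_mul ((z - q) / (p - q))
  have h := (h1.sub h2).sub h3
  have key : (T + y * a) * (T + z * a) + T * a = (T + p * a) * (T + q * a) := by
    have : (T + p * a) * (T + q * a) = T ^ 2 + (p + q) * a * T + p * q * a ^ 2 := by ring
    rw [this, hs, hm]; ring
  have hval : (T + y * a)⁻¹ - (p - z) / (p - q) * (T + p * a)⁻¹ -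
      (z - q) / (p - q) * (T + q * a)⁻¹ =
      T * a / ((T + y * a) * (T + z * a) + T * a) / (T + y * a) := by
    have hA : (p - z) / (p - q) * (T + p * a)⁻¹ + (z - q) / (p - q) * (T + q * a)⁻¹ =
        (T + z * a) / ((T + p * a) * (T + q * a)) := by
      field_simp
      ring
    have hB : (T + y * a)⁻¹ - (T + z * a) / ((T + p * a) * (T + q * a)) =
        T * a / ((T + p * a) * (T + q * a)) / (T + y * a) := by
      rw [eq_div_iff e1.ne', eq_div_iff (by positivity : (T + p * a) * (T + q * a) ≠ 0)]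
      have : ((T + y * a)⁻¹ - (T + z * a) / ((T + p * a) * (T + q * a))) * (T + y * a) *
          ((T + p * a) * (T + q * a)) = (T + p * a) * (T + q * a) - (T + z * a) * (T + y * a) := by
        field_simp
      rw [this, ← key]; ring
    rw [key, ← hB, ← hA]; ring
  rw [hval] at h
  exact h

theorem tendsto_om {y z p q a : ℝ} (hpq : q < p) :
    Tendsto (om y z p q a) atTop (𝓝 0) := by
  have hr : p - q ≠ 0 := (sub_pos.mpr hpq).ne'
  have h1 := tendsto_log_add_sub_log (y * a)
  have h2 := (tendsto_log_add_sub_log (p * a)).const_mul ((p - z) / (p - q))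
  have h3 := (tendsto_log_add_sub_log (q * a)).const_mul ((z - q) / (p - q))
  have h := (h1.sub h2).sub h3
  simp only [mul_zero, sub_zero] at h
  refine h.congr ?_
  intro T
  unfold om
  have : (p - z) / (p - q) + (z - q) / (p - q) = 1 := by field_simp; ring
  linear_combination (Real.log T) * this

theorem continuousOn_om {y z p q a : ℝ} (hy : 0 < y) (hp : 0 < p) (hq : 0 < q)
    (ha : 0 < a) : ContinuousOn (om y z p q a) (Set.Ici 0) := by
  unfold om
  refine ((ContinuousOn.log (by fun_prop) ?_).sub ((ContinuousOn.log (by fun_prop) ?_).const_smul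
    ((p - z) / (p - q)))).sub ((ContinuousOn.log (by fun_prop) ?_).const_smul
    ((z - q) / (p - q))) <;>
  · intro T hT
    have hT0 : (0 : ℝ) ≤ T := hT
    positivity

theorem om_zero {y z p q a : ℝ} (hy : 0 < y) (hp : 0 < p) (hq : 0 < q) (hpq : q < p)
    (ha : 0 < a) : om y z p q a 0 = om y z p q 1 0 := by
  have hr : p - q ≠ 0 := (sub_pos.mpr hpq).ne'
  unfold om
  simp only [zero_add, mul_one]
  rw [Real.log_mul hy.ne' ha.ne', Real.log_mul hp.ne' ha.ne', Real.log_mul hq.ne' ha.ne']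
  have : (p - z) / (p - q) + (z - q) / (p - q) = 1 := by field_simp; ring
  linear_combination (-(Real.log a)) * this

theorem om_zero_nonpos {y z p q : ℝ} (hy : 0 < y) (hz : 0 < z) (hq : 0 < q) (hpq : q < p)
    (hs : p + q = 1 + y + z) (hm : p * q = y * z) : om y z p q 1 0 ≤ 0 := by
  have hp : 0 < p := hq.trans hpq
  have hmono : MonotoneOn (om y z p q 1) (Set.Ici 0) := by
    refine monotoneOn_of_deriv_nonneg (convex_Ici 0) (continuousOn_om hy hp hq one_pos) ?_ ?_
    · intro T hT
      rw [interior_Ici] at hT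
      exact (hasDerivAt_om hy hz hq hpq hs hm one_pos hT).differentiableAt.differentiableWithinAt
    · intro T hT
      rw [interior_Ici] at hT
      have hT0 : 0 < T := hT
      rw [(hasDerivAt_om hy hz hq hpq hs hm one_pos hT).deriv]
      positivity
  refine ge_of_tendsto (tendsto_om (y := y) (z := z) (a := 1) hpq) ?_
  filter_upwards [eventually_ge_atTop (0 : ℝ)] with T hT
  exact hmono (Set.self_mem_Ici) hT hT


section Main

variable {ι κ : Type*} [Fintype ι] [Fintype κ]

/-- the antiderivative -/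
noncomputable def bigF (m : ι → ℝ) (c d a u v : κ → ℝ) (y z p q T : ℝ) : ℝ :=
  ∑ j, (T + m j) * Real.log (T + m j) - ∑ k, (T + c k) * Real.log (T + c k) -
    ∑ k, (T + d k) * Real.log (T + d k) -
    ∑ k, ((T + p * a k) * Real.log (T + p * a k) + (T + q * a k) * Real.log (T + q * a k) -
      (T + y * a k) * Real.log (T + y * a k) - (T + z * a k) * Real.log (T + z * a k)) +
    ∑ k, (u k - y * a k) * om y z p q (a k) T + ∑ k, (v k - z * a k) * om z y p q (a k) T

theorem continuousOn_eta (x : ℝ) :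
    ContinuousOn (fun T : ℝ => (T + x) * Real.log (T + x)) (Set.Ici 0) :=
  (Real.continuous_mul_log.comp (continuous_id.add continuous_const)).continuousOn

theorem hasDerivAt_bigF {m : ι → ℝ} {c d a u v : κ → ℝ} {y z p q T : ℝ}
    (hcard : Fintype.card ι = 2 * Fintype.card κ)
    (hm : ∀ j, 0 ≤ m j) (hc : ∀ k, 0 ≤ c k) (hd : ∀ k, 0 ≤ d k) (ha : ∀ k, 0 < a k)
    (hy : 0 < y) (hz : 0 < z) (hq : 0 < q) (hpq : q < p)
    (hs : p + q = 1 + y + z) (hmul : p * q = y * z) (hT : 0 < T) :
    HasDerivAt (bigF m c d a u v y z p q)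
      (∑ j, Real.log (T + m j) - (∑ k, Real.log (T + c k) + ∑ k, Real.log (T + d k) +
        ∑ k, (Real.log (1 + T * a k / ((T + y * a k) * (T + z * a k))) -
        T * a k / ((T + y * a k) * (T + z * a k) + T * a k) *
          ((u k - y * a k) / (T + y * a k) + (v k - z * a k) / (T + z * a k))))) T := by
  have hp : 0 < p := hq.trans hpq
  have h1 : HasDerivAt (fun T : ℝ => ∑ j, (T + m j) * Real.log (T + m j))
      (∑ j, (Real.log (T + m j) + 1)) T :=
    HasDerivAt.fun_sum fun j _ => hasDerivAt_eta (m j) T (by have := hm j; linarith)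
  have h2 : HasDerivAt (fun T : ℝ => ∑ k, (T + c k) * Real.log (T + c k))
      (∑ k, (Real.log (T + c k) + 1)) T :=
    HasDerivAt.fun_sum fun j _ => hasDerivAt_eta (c j) T (by have := hc j; linarith)
  have h3 : HasDerivAt (fun T : ℝ => ∑ k, (T + d k) * Real.log (T + d k))
      (∑ k, (Real.log (T + d k) + 1)) T :=
    HasDerivAt.fun_sum fun j _ => hasDerivAt_eta (d j) T (by have := hd j; linarith)
  have h4 : HasDerivAt (fun T : ℝ => ∑ k, ((T + p * a k) * Real.log (T + p * a k) +
      (T + q * a k) * Real.log (T + q * a k) -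
      (T + y * a k) * Real.log (T + y * a k) - (T + z * a k) * Real.log (T + z * a k)))
      (∑ k, ((Real.log (T + p * a k) + 1) + (Real.log (T + q * a k) + 1) -
        (Real.log (T + y * a k) + 1) - (Real.log (T + z * a k) + 1))) T :=
    HasDerivAt.fun_sum fun k _ => by
      have := ha k
      exact (((hasDerivAt_eta (p * a k) T (by positivity)).add
        (hasDerivAt_eta (q * a k) T (by positivity))).sub
        (hasDerivAt_eta (y * a k) T (by positivity))).sub
        (hasDerivAt_eta (z * a k) T (by positivity))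
  have h5 : HasDerivAt (fun T : ℝ => ∑ k, (u k - y * a k) * om y z p q (a k) T)
      (∑ k, (u k - y * a k) *
        (T * a k / ((T + y * a k) * (T + z * a k) + T * a k) / (T + y * a k))) T :=
    HasDerivAt.fun_sum fun k _ =>
      (hasDerivAt_om hy hz hq hpq hs hmul (ha k) hT).const_mul _
  have h6 : HasDerivAt (fun T : ℝ => ∑ k, (v k - z * a k) * om z y p q (a k) T)
      (∑ k, (v k - z * a k) *
        (T * a k / ((T + z * a k) * (T + y * a k) + T * a k) / (T + z * a k))) T :=
    HasDerivAt.fun_sum fun k _ =>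
      (hasDerivAt_om hz hy hq hpq (by rw [hs]; ring) (by rw [hmul]; ring) (ha k) hT).const_mul _
  have h := ((((h1.sub h2).sub h3).sub h4).add h5).add h6
  refine h.congr_deriv ?_
  have hlog : ∀ k, Real.log (1 + T * a k / ((T + y * a k) * (T + z * a k))) =
      Real.log (T + p * a k) + Real.log (T + q * a k) - Real.log (T + y * a k) -
        Real.log (T + z * a k) := by
    intro k
    have hak := ha k
    have e1 : 0 < T + y * a k := by positivity
    have e2 : 0 < T + z * a k := by positivity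
    have e3 : 0 < T + p * a k := by positivity
    have e4 : 0 < T + q * a k := by positivity
    have key : (T + y * a k) * (T + z * a k) + T * a k = (T + p * a k) * (T + q * a k) := by
      have : (T + p * a k) * (T + q * a k) = T ^ 2 + (p + q) * a k * T + p * q * a k ^ 2 := by
        ring
      rw [this, hs, hmul]; ring
    have : 1 + T * a k / ((T + y * a k) * (T + z * a k)) =
        ((T + p * a k) * (T + q * a k)) / ((T + y * a k) * (T + z * a k)) := by
      rw [← key]; field_simp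
    rw [this, Real.log_div (by positivity) (by positivity), Real.log_mul e3.ne' e4.ne',
      Real.log_mul e1.ne' e2.ne']
    ring
  simp only [hlog]
  have hc1 : ∑ _j : ι, (1 : ℝ) = 2 * ∑ _k : κ, (1 : ℝ) := by
    simp only [Finset.sum_const, Finset.card_univ, nsmul_eq_mul, mul_one, hcard]
    push_cast; ring
  simp only [Finset.sum_add_distrib, Finset.sum_sub_distrib, hc1]
  have h56 : ∑ k, (u k - y * a k) *
        (T * a k / ((T + y * a k) * (T + z * a k) + T * a k) / (T + y * a k)) +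
      ∑ k, (v k - z * a k) *
        (T * a k / ((T + z * a k) * (T + y * a k) + T * a k) / (T + z * a k)) =
      ∑ k, T * a k / ((T + y * a k) * (T + z * a k) + T * a k) *
          ((u k - y * a k) / (T + y * a k) + (v k - z * a k) / (T + z * a k)) := by
    rw [← Finset.sum_add_distrib]
    refine Finset.sum_congr rfl fun k _ => ?_
    rw [mul_comm (T + z * a k) (T + y * a k)]
    ring
  linear_combination h56

theorem tendsto_bigF {m : ι → ℝ} {c d a u v : κ → ℝ} {y z p q : ℝ}
    (hcard : Fintype.card ι = 2 * Fintype.card κ)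
    (hpq : q < p) (hs : p + q = 1 + y + z)
    (hsum : ∑ j, m j = ∑ k, a k + ∑ k, c k + ∑ k, d k) :
    Tendsto (bigF m c d a u v y z p q) atTop (𝓝 0) := by
  have h1 : Tendsto (fun T : ℝ => ∑ j, ((T + m j) * Real.log (T + m j) - T * Real.log T -
      m j * Real.log T)) atTop (𝓝 (∑ j, m j)) :=
    tendsto_finsetSum _ fun j _ => tendsto_eta (m j)
  have h2 : Tendsto (fun T : ℝ => ∑ j, ((T + c j) * Real.log (T + c j) - T * Real.log T -
      c j * Real.log T)) atTop (𝓝 (∑ j, c j)) :=
    tendsto_finsetSum _ fun j _ => tendsto_eta (c j)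
  have h3 : Tendsto (fun T : ℝ => ∑ j, ((T + d j) * Real.log (T + d j) - T * Real.log T -
      d j * Real.log T)) atTop (𝓝 (∑ j, d j)) :=
    tendsto_finsetSum _ fun j _ => tendsto_eta (d j)
  have h4 : Tendsto (fun T : ℝ => ∑ k,
      (((T + p * a k) * Real.log (T + p * a k) - T * Real.log T - p * a k * Real.log T) +
      ((T + q * a k) * Real.log (T + q * a k) - T * Real.log T - q * a k * Real.log T) -
      ((T + y * a k) * Real.log (T + y * a k) - T * Real.log T - y * a k * Real.log T) -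
      ((T + z * a k) * Real.log (T + z * a k) - T * Real.log T - z * a k * Real.log T)))
      atTop (𝓝 (∑ k, (p * a k + q * a k - y * a k - z * a k))) :=
    tendsto_finsetSum _ fun k _ =>
      (((tendsto_eta (p * a k)).add (tendsto_eta (q * a k))).sub
        (tendsto_eta (y * a k))).sub (tendsto_eta (z * a k))
  have h5 : Tendsto (fun T : ℝ => ∑ k, (u k - y * a k) * om y z p q (a k) T) atTop
      (𝓝 (∑ k, (u k - y * a k) * 0)) :=
    tendsto_finsetSum _ fun k _ => (tendsto_om hpq).const_mul _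
  have h6 : Tendsto (fun T : ℝ => ∑ k, (v k - z * a k) * om z y p q (a k) T) atTop
      (𝓝 (∑ k, (v k - z * a k) * 0)) :=
    tendsto_finsetSum _ fun k _ => (tendsto_om hpq).const_mul _
  have h := ((((h1.sub h2).sub h3).sub h4).add h5).add h6
  have hlim : ∑ j, m j - ∑ j, c j - ∑ j, d j - ∑ k, (p * a k + q * a k - y * a k - z * a k) +
      ∑ k, (u k - y * a k) * 0 + ∑ k, (v k - z * a k) * 0 = 0 := by
    have : ∀ k, p * a k + q * a k - y * a k - z * a k = a k := by
      intro k
      have : p * a k + q * a k - y * a k - z * a k = (p + q - y - z) * a k := by ring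
      rw [this, hs]; ring
    simp only [this, mul_zero, Finset.sum_const_zero, hsum]
    ring
  rw [hlim] at h
  refine h.congr ?_
  intro T
  have hc1 : ∑ _j : ι, (1 : ℝ) = 2 * ∑ _k : κ, (1 : ℝ) := by
    simp only [Finset.sum_const, Finset.card_univ, nsmul_eq_mul, mul_one, hcard]
    push_cast; ring
  have hc2 : ∀ x : ℝ, ∑ _j : ι, x = 2 * ∑ _k : κ, x := by
    intro x
    have := congrArg (fun w => w * x) hc1
    simp only [Finset.sum_mul, one_mul, mul_assoc] at this
    simpa using this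
  have e1 : ∑ j, m j * Real.log T = (∑ k, a k) * Real.log T + (∑ k, c k) * Real.log T +
      (∑ k, d k) * Real.log T := by
    rw [← Finset.sum_mul, hsum]; ring
  have e2 : ∑ k, (p * a k * Real.log T + q * a k * Real.log T - y * a k * Real.log T -
      z * a k * Real.log T) = (∑ k, a k) * Real.log T := by
    rw [Finset.sum_mul]
    refine Finset.sum_congr rfl fun k _ => ?_
    have : p * a k * Real.log T + q * a k * Real.log T - y * a k * Real.log T -
      z * a k * Real.log T = (p + q - y - z) * (a k * Real.log T) := by ring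
    rw [this, hs]; ring
  have e3 : ∑ j, c j * Real.log T = (∑ k, c k) * Real.log T := by rw [Finset.sum_mul]
  have e4 : ∑ j, d j * Real.log T = (∑ k, d k) * Real.log T := by rw [Finset.sum_mul]
  unfold bigF
  have s1 : ∑ j, ((T + m j) * Real.log (T + m j) - T * Real.log T - m j * Real.log T) =
      ∑ j, (T + m j) * Real.log (T + m j) - 2 * ∑ _k : κ, T * Real.log T -
        ∑ j, m j * Real.log T := by
    rw [Finset.sum_sub_distrib, Finset.sum_sub_distrib, hc2]
  have s2 : ∀ w : κ → ℝ, ∑ j, ((T + w j) * Real.log (T + w j) - T * Real.log T -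
      w j * Real.log T) =
      ∑ j, (T + w j) * Real.log (T + w j) - ∑ _k : κ, T * Real.log T -
        ∑ j, w j * Real.log T := by
    intro w
    rw [Finset.sum_sub_distrib, Finset.sum_sub_distrib]
  have s4 : ∑ k,
      (((T + p * a k) * Real.log (T + p * a k) - T * Real.log T - p * a k * Real.log T) +
      ((T + q * a k) * Real.log (T + q * a k) - T * Real.log T - q * a k * Real.log T) -
      ((T + y * a k) * Real.log (T + y * a k) - T * Real.log T - y * a k * Real.log T) -
      ((T + z * a k) * Real.log (T + z * a k) - T * Real.log T - z * a k * Real.log T)) =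
      ∑ k, ((T + p * a k) * Real.log (T + p * a k) + (T + q * a k) * Real.log (T + q * a k) -
      (T + y * a k) * Real.log (T + y * a k) - (T + z * a k) * Real.log (T + z * a k)) -
      ∑ k, (p * a k * Real.log T + q * a k * Real.log T - y * a k * Real.log T -
      z * a k * Real.log T) := by
    rw [← Finset.sum_sub_distrib]
    refine Finset.sum_congr rfl fun k _ => ?_
    ring
  rw [s1, s2 c, s2 d, s4, e1, e2, e3, e4]
  ring

theorem sum_eta_zero (w : ι → ℝ) :
    ∑ j, (0 + w j) * Real.log (0 + w j) = -∑ j, Real.negMulLog (w j) := by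
  rw [← Finset.sum_neg_distrib]
  refine Finset.sum_congr rfl fun k _ => ?_
  simp [Real.negMulLog]

/-- The scalar key lemma. -/
theorem scalar_key {m : ι → ℝ} {c d a u v : κ → ℝ} {y z : ℝ}
    (hcard : Fintype.card ι = 2 * Fintype.card κ)
    (hm : ∀ j, 0 ≤ m j) (hc : ∀ k, 0 ≤ c k) (hd : ∀ k, 0 ≤ d k) (ha : ∀ k, 0 < a k)
    (hy : 0 < y) (hz : 0 < z)
    (hsum : ∑ j, m j = ∑ k, a k + ∑ k, c k + ∑ k, d k)
    (hu : ∑ k, u k = y * ∑ k, a k) (hv : ∑ k, v k ≤ z * ∑ k, a k)
    (htw : ∀ t : ℝ, 0 < t → ∑ k, Real.log (t + c k) + ∑ k, Real.log (t + d k) +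
        ∑ k, (Real.log (1 + t * a k / ((t + y * a k) * (t + z * a k))) -
        t * a k / ((t + y * a k) * (t + z * a k) + t * a k) *
          ((u k - y * a k) / (t + y * a k) + (v k - z * a k) / (t + z * a k))) ≤
        ∑ j, Real.log (t + m j)) :
    ∑ k, Real.negMulLog (a k) + ∑ k, Real.negMulLog (c k) + ∑ k, Real.negMulLog (d k) +
      (∑ k, a k) * (ent2 (1 + y + z) (y * z) - Real.negMulLog y - Real.negMulLog z) ≤
      ∑ j, Real.negMulLog (m j) := by
  obtain ⟨p, q, hq, hpq, hs, hmul, hent⟩ := exists_roots hy hz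
  have hp : 0 < p := hq.trans hpq
  have hcont : ContinuousOn (bigF m c d a u v y z p q) (Set.Ici 0) := by
    unfold bigF
    refine ((((ContinuousOn.sub (ContinuousOn.sub ?_ ?_) ?_).sub ?_).add ?_).add ?_)
    · exact continuousOn_finsetSum _ fun j _ => continuousOn_eta (m j)
    · exact continuousOn_finsetSum _ fun j _ => continuousOn_eta (c j)
    · exact continuousOn_finsetSum _ fun j _ => continuousOn_eta (d j)
    · exact continuousOn_finsetSum _ fun k _ =>
        (((continuousOn_eta (p * a k)).add (continuousOn_eta (q * a k))).sub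
        (continuousOn_eta (y * a k))).sub (continuousOn_eta (z * a k))
    · exact continuousOn_finsetSum _ fun k _ =>
        (continuousOn_om hy hp hq (ha k)).const_smul (u k - y * a k)
    · exact continuousOn_finsetSum _ fun k _ =>
        (continuousOn_om hz hp hq (ha k)).const_smul (v k - z * a k)
  have hmono : MonotoneOn (bigF m c d a u v y z p q) (Set.Ici 0) := by
    refine monotoneOn_of_deriv_nonneg (convex_Ici 0) hcont ?_ ?_
    · intro T hT
      rw [interior_Ici] at hT
      exact (hasDerivAt_bigF hcard hm hc hd ha hy hz hq hpq hs hmul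
        hT).differentiableAt.differentiableWithinAt
    · intro T hT
      rw [interior_Ici] at hT
      have hT0 : 0 < T := hT
      rw [(hasDerivAt_bigF hcard hm hc hd ha hy hz hq hpq hs hmul hT).deriv]
      have := htw T hT0
      linarith
  have hF0 : bigF m c d a u v y z p q 0 ≤ 0 := by
    refine ge_of_tendsto (tendsto_bigF (u := u) (v := v) hcard hpq hs hsum) ?_
    filter_upwards [eventually_ge_atTop (0 : ℝ)] with T hT
    exact hmono (Set.self_mem_Ici) hT hT
  have hzero : bigF m c d a u v y z p q 0 = -∑ j, Real.negMulLog (m j) +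
      ∑ k, Real.negMulLog (c k) + ∑ k, Real.negMulLog (d k) +
      (∑ k, Real.negMulLog (a k) + (∑ k, a k) * (Real.negMulLog p + Real.negMulLog q -
        Real.negMulLog y - Real.negMulLog z)) +
      (∑ k, v k - z * ∑ k, a k) * om z y p q 1 0 := by
    unfold bigF
    have t2 : ∑ k, ((0 + p * a k) * Real.log (0 + p * a k) +
        (0 + q * a k) * Real.log (0 + q * a k) -
        (0 + y * a k) * Real.log (0 + y * a k) - (0 + z * a k) * Real.log (0 + z * a k)) =
        -(∑ k, Real.negMulLog (a k) + (∑ k, a k) * (Real.negMulLog p + Real.negMulLog q -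
        Real.negMulLog y - Real.negMulLog z)) := by
      rw [Finset.sum_mul, ← Finset.sum_add_distrib, ← Finset.sum_neg_distrib]
      refine Finset.sum_congr rfl fun k _ => ?_
      have hak := ha k
      simp only [zero_add, Real.negMulLog]
      rw [Real.log_mul hp.ne' hak.ne', Real.log_mul hq.ne' hak.ne', Real.log_mul hy.ne' hak.ne',
        Real.log_mul hz.ne' hak.ne']
      have : p = 1 + y + z - q := by linarith
      have h1 : p * a k * Real.log (a k) + q * a k * Real.log (a k) - y * a k * Real.log (a k) -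
          z * a k * Real.log (a k) = a k * Real.log (a k) := by
        rw [this]; ring
      linear_combination h1
    have t3 : ∑ k, (u k - y * a k) * om y z p q (a k) 0 = 0 := by
      have : ∀ k, (u k - y * a k) * om y z p q (a k) 0 =
          (u k - y * a k) * om y z p q 1 0 := fun k => by rw [om_zero hy hp hq hpq (ha k)]
      simp only [this]
      rw [← Finset.sum_mul, Finset.sum_sub_distrib, ← Finset.mul_sum, hu]
      ring
    have t4 : ∑ k, (v k - z * a k) * om z y p q (a k) 0 =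
        (∑ k, v k - z * ∑ k, a k) * om z y p q 1 0 := by
      have : ∀ k, (v k - z * a k) * om z y p q (a k) 0 =
          (v k - z * a k) * om z y p q 1 0 := fun k => by rw [om_zero hz hp hq hpq (ha k)]
      simp only [this]
      rw [← Finset.sum_mul, Finset.sum_sub_distrib, ← Finset.mul_sum]
    rw [sum_eta_zero m, sum_eta_zero c, sum_eta_zero d, t2, t3, t4]
    ring
  have hom : om z y p q 1 0 ≤ 0 :=
    om_zero_nonpos hz hy hq hpq (by rw [hs]; ring) (by rw [hmul]; ring)
  have hprod : 0 ≤ (∑ k, v k - z * ∑ k, a k) * om z y p q 1 0 :=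
    mul_nonneg_of_nonpos_of_nonpos (by linarith) hom
  rw [hzero] at hF0
  rw [hent]
  linarith

end Main

end Crest.Agent.R341
end

-- ▼ part R341/Key3A
section

/-! Row 341, task T5a: the 3-path inequality for diagonal positive `A`. -/

namespace Crest.Agent.R341

open Matrix Crest.Quantum
open scoped ComplexOrder

variable {e : Type*} [Fintype e] [DecidableEq e]

theorem ent2_mul' {k t d : ℝ} (hk : 0 < k) (h1 : 0 < t + Real.sqrt (t ^ 2 - 4 * d))
    (h2 : 0 < t - Real.sqrt (t ^ 2 - 4 * d)) :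
    ent2 (k * t) (k ^ 2 * d) = k * ent2 t d + Real.negMulLog k * t := by
  have hs : Real.sqrt ((k * t) ^ 2 - 4 * (k ^ 2 * d)) = k * Real.sqrt (t ^ 2 - 4 * d) := by
    have : (k * t) ^ 2 - 4 * (k ^ 2 * d) = k ^ 2 * (t ^ 2 - 4 * d) := by ring
    rw [this, Real.sqrt_mul (sq_nonneg k), Real.sqrt_sq hk.le]
  unfold ent2
  rw [hs]
  set r := Real.sqrt (t ^ 2 - 4 * d)
  have e1 : (k * t + k * r) / 2 = k * ((t + r) / 2) := by ring
  have e2 : (k * t - k * r) / 2 = k * ((t - r) / 2) := by ring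
  rw [e1, e2]
  unfold Real.negMulLog
  rw [Real.log_mul hk.ne' (by positivity), Real.log_mul hk.ne' (by positivity)]
  ring

theorem negMulLog_mul' {x y : ℝ} (hx : 0 < x) (hy : 0 < y) :
    Real.negMulLog (x * y) = x * Real.negMulLog y + y * Real.negMulLog x := by
  unfold Real.negMulLog
  rw [Real.log_mul hx.ne' hy.ne']
  ring

/-- the constants agree -/
theorem const_eq {A c d : ℝ} (hA : 0 < A) (hc : 0 < c) (hd : 0 < d) :
    A * (ent2 (1 + d / A + c / A) (d / A * (c / A)) - Real.negMulLog (d / A) -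
        Real.negMulLog (c / A)) =
      ent2 (A + c + d) (c * d) - Real.negMulLog A - Real.negMulLog c - Real.negMulLog d := by
  have hy : 0 < d / A := div_pos hd hA
  have hz : 0 < c / A := div_pos hc hA
  obtain ⟨p, q, hq, hpq, hs, hmul, hent⟩ := exists_roots hy hz
  have hdisc : 0 ≤ (1 + d / A + c / A) ^ 2 - 4 * (d / A * (c / A)) := by
    nlinarith [sq_nonneg (d / A - c / A)]
  have hr : Real.sqrt ((1 + d / A + c / A) ^ 2 - 4 * (d / A * (c / A))) < 1 + d / A + c / A := by
    rw [Real.sqrt_lt' (by positivity)]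
    have := mul_pos hy hz
    linarith
  have h := ent2_mul' (k := A) (t := 1 + d / A + c / A) (d := d / A * (c / A)) hA
    (by have := Real.sqrt_nonneg ((1 + d / A + c / A) ^ 2 - 4 * (d / A * (c / A))); positivity)
    (by linarith)
  have e1 : A * (1 + d / A + c / A) = A + c + d := by field_simp; ring
  have e2 : A ^ 2 * (d / A * (c / A)) = c * d := by field_simp
  rw [e1, e2] at h
  have hn1 := negMulLog_mul' hA hy
  have hn2 := negMulLog_mul' hA hz
  have e3 : A * (d / A) = d := by field_simp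
  have e4 : A * (c / A) = c := by field_simp
  rw [e3] at hn1
  rw [e4] at hn2
  rw [h, hn1, hn2]
  ring

omit [Fintype e] [DecidableEq e] in
theorem posSemidef_lower {A B C : Matrix e e ℂ}
    (hP : (Matrix.fromBlocks A B Bᴴ C).PosSemidef) : C.PosSemidef := by
  have := hP.submatrix (Sum.inr : e → e ⊕ e)
  have h2 : (Matrix.fromBlocks A B Bᴴ C).submatrix (Sum.inr : e → e ⊕ e) Sum.inr = C := by
    ext i j
    simp
  rwa [h2] at this

theorem posSemidef_add_upper {A B C D : Matrix e e ℂ}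
    (hP : (Matrix.fromBlocks A B Bᴴ C).PosSemidef) (hD : D.PosSemidef) :
    (Matrix.fromBlocks (A + D) B Bᴴ C).PosSemidef := by
  have h1 : (Matrix.fromBlocks D 0 0 (0 : Matrix e e ℂ)).PosSemidef := by
    have := hD.conjTranspose_mul_mul_same (Matrix.fromCols (1 : Matrix e e ℂ) (0 : Matrix e e ℂ))
    convert this using 1
    ext i j
    rcases i with i | i <;> rcases j with j | j <;>
      simp [Matrix.mul_apply, Matrix.fromCols, Matrix.one_apply]
  have h2 := hP.add h1
  convert h2 using 1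
  ext i j
  rcases i with i | i <;> rcases j with j | j <;> simp

/-- trace of a Hermitian matrix as the sum of its eigenvalues -/
theorem sum_eigenvalues_re {n : Type*} [Fintype n] [DecidableEq n] {A : Matrix n n ℂ}
    (hA : A.IsHermitian) : ∑ i, hA.eigenvalues i = A.trace.re := by
  have := hA.trace_eq_sum_eigenvalues
  rw [this]
  simp

/-- 3-path inequality, positive diagonal `A`, nonzero `C`, `D`. -/
theorem threePath_diag [Nonempty e] {a : e → ℝ} (ha : ∀ i, 0 < a i) {B C D : Matrix e e ℂ}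
    (hP : (Matrix.fromBlocks (Matrix.diagonal (fun i => (a i : ℂ))) B Bᴴ C).PosSemidef)
    (hD : D.PosSemidef) (hc : 0 < C.trace.re) (hd : 0 < D.trace.re) :
    ∑ i, Real.negMulLog (a i) + vnEntropy C + vnEntropy D +
      (ent2 (∑ i, a i + C.trace.re + D.trace.re) (C.trace.re * D.trace.re) -
        Real.negMulLog (∑ i, a i) - Real.negMulLog C.trace.re - Real.negMulLog D.trace.re) ≤
    vnEntropy (Matrix.fromBlocks (Matrix.diagonal (fun i => (a i : ℂ)) + D) B Bᴴ C) := by
  have hC : C.PosSemidef := posSemidef_lower hP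
  have hM := posSemidef_add_upper hP hD
  set M := Matrix.fromBlocks (Matrix.diagonal (fun i => (a i : ℂ)) + D) B Bᴴ C with hMdef
  set A₀ := ∑ i, a i with hA₀
  have hA0 : 0 < A₀ := Finset.sum_pos (fun i _ => ha i) Finset.univ_nonempty
  have hy : 0 < D.trace.re / A₀ := div_pos hd hA0
  have hz : 0 < C.trace.re / A₀ := div_pos hc hA0
  have hkey := scalar_key (ι := e ⊕ e) (κ := e) (m := hM.1.eigenvalues) (c := hC.1.eigenvalues)
    (d := hD.1.eigenvalues) (a := a) (u := fun i => (D i i).re)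
    (v := fun i => ((B * Bᴴ) i i).re / a i) (y := D.trace.re / A₀) (z := C.trace.re / A₀)
    (by simp [Fintype.card_sum]; ring) (fun j => hM.eigenvalues_nonneg j)
    (fun j => hC.eigenvalues_nonneg j) (fun j => hD.eigenvalues_nonneg j) ha hy hz
    (by
      rw [sum_eigenvalues_re, sum_eigenvalues_re, sum_eigenvalues_re, hMdef]
      simp only [Matrix.trace, Matrix.diag, Fintype.sum_sum_type, Matrix.fromBlocks_apply₁₁,
        Matrix.fromBlocks_apply₂₂, Matrix.add_apply, Matrix.diagonal_apply_eq,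
        Finset.sum_add_distrib, Complex.add_re, Complex.re_sum, Complex.ofReal_re]
      ring)
    (by
      rw [← hA₀, div_mul_cancel₀ _ hA0.ne']
      simp [Matrix.trace, Matrix.diag])
    (by
      rw [← hA₀, div_mul_cancel₀ _ hA0.ne']
      exact trace_schur_le ha hP)
    (by
      intro t ht
      have h := twise ha hP hD hy hz ht
      rw [trf_of_isHermitian _ hC.1, trf_of_isHermitian _ hD.1, ← hMdef,
        trf_of_isHermitian _ hM.1] at h
      exact h)
  have e1 : ∀ {n : Type _} [Fintype n] [DecidableEq n] {X : Matrix n n ℂ} (hX : X.IsHermitian),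
      vnEntropy X = ∑ i, Real.negMulLog (hX.eigenvalues i) := by
    intro n _ _ X hX
    unfold vnEntropy
    rw [dif_pos hX, ← Finset.sum_neg_distrib]
    refine Finset.sum_congr rfl fun i _ => ?_
    simp [Real.negMulLog]
  rw [e1 hC.1, e1 hD.1, e1 hM.1, ← const_eq hA0 hc hd]
  exact hkey

end Crest.Agent.R341
end

-- ▼ part R341/Key3B
section

/-!
# Row 341, task T5b: the general 3-path inequality from the diagonal one

`threePath_of_diag` takes the statement of `threePath_diag` as a hypothesis.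
-/

set_option autoImplicit false
set_option linter.unusedSectionVars false
open scoped ComplexOrder Matrix
open Crest.Quantum Matrix Filter Topology

namespace Crest.Agent.R341

variable {d e n : Type*} [Fintype d] [Fintype e] [Fintype n]
variable [DecidableEq d] [DecidableEq e] [DecidableEq n]

/-- the statement of `threePath_diag` -/
def ThreePathDiag (e : Type*) [Fintype e] [DecidableEq e] : Prop :=
  ∀ (a : e → ℝ) (B C D : Matrix e e ℂ), (∀ i, 0 < a i) →
    (Matrix.fromBlocks (Matrix.diagonal (fun i => (a i : ℂ))) B Bᴴ C).PosSemidef →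
    D.PosSemidef → 0 < C.trace.re → 0 < D.trace.re →
    ∑ i, Real.negMulLog (a i) + vnEntropy C + vnEntropy D +
      (ent2 (∑ i, a i + C.trace.re + D.trace.re) (C.trace.re * D.trace.re) -
        Real.negMulLog (∑ i, a i) - Real.negMulLog C.trace.re - Real.negMulLog D.trace.re) ≤
    vnEntropy (Matrix.fromBlocks (Matrix.diagonal (fun i => (a i : ℂ)) + D) B Bᴴ C)

/-- `IsUni` for a block diagonal matrix -/
lemma IsUni.fromBlocks {U : Matrix d d ℂ} {V : Matrix e e ℂ} (hU : IsUni U) (hV : IsUni V) :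
    IsUni (Matrix.fromBlocks U 0 0 V) := by
  constructor
  · rw [Matrix.fromBlocks_conjTranspose, Matrix.fromBlocks_multiply]
    simp [hU.left, hV.left, Matrix.fromBlocks_one]
  · rw [Matrix.fromBlocks_conjTranspose, Matrix.fromBlocks_multiply]
    simp [hU.right, hV.right, Matrix.fromBlocks_one]

/-- `D ⊕ 0` is positive semidefinite -/
lemma posSemidef_fromBlocks_zero {D : Matrix e e ℂ} (hD : D.PosSemidef) :
    (Matrix.fromBlocks D 0 0 (0 : Matrix e e ℂ)).PosSemidef := by
  have h3 : (Matrix.fromBlocks D 0 0 (0 : Matrix e e ℂ)) =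
      (Matrix.fromRows (1 : Matrix e e ℂ) (0 : Matrix e e ℂ)) * D *
        (Matrix.fromRows (1 : Matrix e e ℂ) (0 : Matrix e e ℂ))ᴴ := by
    rw [Matrix.conjTranspose_fromRows_eq_fromCols_conjTranspose, Matrix.fromRows_mul,
      Matrix.fromRows_mul_fromCols]
    simp
  rw [h3]
  exact hD.mul_mul_conjTranspose_same _

/-- 3-path inequality for positive definite `A` (and nonzero `C`, `D`) -/
theorem threePath_posDef (hdiag : ThreePathDiag e) {A B C D : Matrix e e ℂ}
    (hA : A.PosDef)
    (hP : (Matrix.fromBlocks A B Bᴴ C).PosSemidef) (hD : D.PosSemidef)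
    (hc : 0 < C.trace.re) (hd : 0 < D.trace.re) :
    vnEntropy A + vnEntropy C + vnEntropy D +
      (ent2 (A.trace.re + C.trace.re + D.trace.re) (C.trace.re * D.trace.re) -
        Real.negMulLog A.trace.re - Real.negMulLog C.trace.re - Real.negMulLog D.trace.re) ≤
    vnEntropy (Matrix.fromBlocks (A + D) B Bᴴ C) := by
  set U : Matrix e e ℂ := (hA.isHermitian.eigenvectorUnitary : Matrix e e ℂ) with hUdef
  have hU : IsUni U := eigU hA.isHermitian
  set a : e → ℝ := hA.isHermitian.eigenvalues with hadef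
  have ha : ∀ i, 0 < a i := fun i => hA.eigenvalues_pos i
  have hspec : spec U a = A := spec_eig hA.isHermitian
  have hdg : Uᴴ * A * U = diagonal (fun i => (a i : ℂ)) := by
    rw [← hspec, spec]
    simp only [Matrix.mul_assoc, hU.left, Matrix.mul_one]
    rw [← Matrix.mul_assoc, hU.left, Matrix.one_mul]
  have hV : IsUni (Matrix.fromBlocks U 0 0 (1 : Matrix e e ℂ)) := IsUni.fromBlocks hU IsUni.one
  have hconj : ∀ X Y Z W : Matrix e e ℂ, (Matrix.fromBlocks U 0 0 (1 : Matrix e e ℂ))ᴴ *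
      Matrix.fromBlocks X Y Z W * Matrix.fromBlocks U 0 0 (1 : Matrix e e ℂ) =
      Matrix.fromBlocks (Uᴴ * X * U) (Uᴴ * Y) (Z * U) W := by
    intro X Y Z W
    rw [Matrix.fromBlocks_conjTranspose, Matrix.fromBlocks_multiply, Matrix.fromBlocks_multiply]
    simp
  have hB : (Uᴴ * B)ᴴ = Bᴴ * U := by simp
  have hDtr : (Uᴴ * D * U).trace = D.trace := by
    rw [Matrix.trace_mul_comm, ← Matrix.mul_assoc, hU.right, Matrix.one_mul]
  have hAtr : A.trace.re = ∑ i, a i := by
    rw [← hspec, spec_trace hU, Complex.ofReal_re]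
  have h1 := hdiag a (Uᴴ * B) C (Uᴴ * D * U) ha
    (by
      have := hP.conjTranspose_mul_mul_same (Matrix.fromBlocks U 0 0 (1 : Matrix e e ℂ))
      rw [hconj, hdg, ← hB] at this
      exact this)
    (hD.conjTranspose_mul_mul_same U) hc (by rw [hDtr]; exact hd)
  have hM : (Matrix.fromBlocks (A + D) B Bᴴ C).PosSemidef := by
    have h2 : (Matrix.fromBlocks (A + D) B Bᴴ C) =
        Matrix.fromBlocks A B Bᴴ C + Matrix.fromBlocks D 0 0 0 := by
      rw [Matrix.fromBlocks_add]; simp
    rw [h2]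
    exact hP.add (posSemidef_fromBlocks_zero hD)
  have h4 : vnEntropy (Matrix.fromBlocks (A + D) B Bᴴ C) =
      vnEntropy (Matrix.fromBlocks (Matrix.diagonal (fun i => (a i : ℂ)) + Uᴴ * D * U)
        (Uᴴ * B) (Uᴴ * B)ᴴ C) := by
    rw [← vnEntropy_conj hM hV, hconj, hB, Matrix.mul_add, Matrix.add_mul, hdg]
  rw [h4]
  refine le_trans (le_of_eq ?_) h1
  rw [hDtr, hAtr, vnEntropy_conj hD hU]
  congr 2
  congr 1
  conv_lhs => rw [← hspec]
  rw [vnEntropy_spec hU (fun i => (ha i).le)]

/-- adding a multiple of the identity to a matrix in spectral form -/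
lemma spec_add_smul_one {U : Matrix d d ℂ} (hU : IsUni U) (l : d → ℝ) (ε : ℝ) :
    spec U l + (ε : ℂ) • (1 : Matrix d d ℂ) = spec U (fun i => l i + ε) := by
  have h1 : (ε : ℂ) • (1 : Matrix d d ℂ) = U * diagonal (fun _ => (ε : ℂ)) * Uᴴ := by
    have : (diagonal (fun _ => (ε : ℂ)) : Matrix d d ℂ) = (ε : ℂ) • (1 : Matrix d d ℂ) := by
      ext i j
      simp [diagonal_apply, Matrix.one_apply]
    rw [this, Matrix.mul_smul, Matrix.smul_mul, Matrix.mul_one, hU.right]
  rw [h1, spec, spec, ← Matrix.add_mul, ← Matrix.mul_add]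
  congr 2
  ext i j
  simp only [Matrix.add_apply, diagonal_apply]
  split_ifs <;> simp

/-- `S(A + ε) → S(A)` -/
lemma tendsto_vnEntropy_add_smul_one {A : Matrix d d ℂ} (hA : A.PosSemidef) :
    Tendsto (fun ε : ℝ => vnEntropy (A + (ε : ℂ) • (1 : Matrix d d ℂ))) (𝓝[>] 0)
      (𝓝 (vnEntropy A)) := by
  obtain ⟨U, l, hU, hl, rfl⟩ := exists_spec hA
  rw [vnEntropy_spec hU hl]
  have h1 : Tendsto (fun ε : ℝ => ∑ i, Real.negMulLog (l i + ε)) (𝓝[>] 0)
      (𝓝 (∑ i, Real.negMulLog (l i))) := by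
    have hcont : Continuous (fun ε : ℝ => ∑ i, Real.negMulLog (l i + ε)) := by
      refine continuous_finsetSum _ fun i _ => ?_
      exact Real.continuous_negMulLog.comp (continuous_const.add continuous_id)
    have := (hcont.tendsto 0).mono_left (nhdsWithin_le_nhds (s := Set.Ioi (0 : ℝ)))
    simpa using this
  refine h1.congr' ?_
  filter_upwards [self_mem_nhdsWithin] with ε hε
  rw [spec_add_smul_one hU, vnEntropy_spec hU (fun i => add_nonneg (hl i) (le_of_lt hε))]

lemma continuous_ent2' : Continuous (fun x : ℝ × ℝ => ent2 x.1 x.2) := by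
  unfold ent2
  refine Continuous.add ?_ ?_
  · exact Real.continuous_negMulLog.comp (by fun_prop)
  · exact Real.continuous_negMulLog.comp (by fun_prop)

/-- 3-path inequality, general, from the diagonal case. -/
theorem threePath_of_diag (hdiag : Nonempty e → ThreePathDiag e) {A B C D : Matrix e e ℂ}
    (hP : (Matrix.fromBlocks A B Bᴴ C).PosSemidef) (hD : D.PosSemidef) :
    vnEntropy A + vnEntropy C + vnEntropy D +
      (ent2 (A.trace.re + C.trace.re + D.trace.re) (C.trace.re * D.trace.re) -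
        Real.negMulLog A.trace.re - Real.negMulLog C.trace.re - Real.negMulLog D.trace.re) ≤
    vnEntropy (Matrix.fromBlocks (A + D) B Bᴴ C) := by
  rcases isEmpty_or_nonempty e with he | he
  · have h0 : ∀ X : Matrix e e ℂ, X = 0 := fun X => by ext i; exact he.elim i
    have h1 : ∀ X : Matrix (e ⊕ e) (e ⊕ e) ℂ, X = 0 := fun X => by
      ext i; rcases i with i | i <;> exact he.elim i
    rw [h1 (Matrix.fromBlocks (A + D) B Bᴴ C), h0 A, h0 C, h0 D]
    simp [vnEntropy_zero, ent2]
  have hdiag' := hdiag he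
  have hA : A.PosSemidef := by
    have := hP.submatrix (Sum.inl : e → e ⊕ e)
    have h2 : (Matrix.fromBlocks A B Bᴴ C).submatrix (Sum.inl : e → e ⊕ e) Sum.inl = A := by
      ext i j; simp
    rwa [h2] at this
  have hC : C.PosSemidef := by
    have := hP.submatrix (Sum.inr : e → e ⊕ e)
    have h2 : (Matrix.fromBlocks A B Bᴴ C).submatrix (Sum.inr : e → e ⊕ e) Sum.inr = C := by
      ext i j; simp
    rwa [h2] at this
  have hDB := posSemidef_fromBlocks_zero hD
  have hM : (Matrix.fromBlocks (A + D) B Bᴴ C).PosSemidef := by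
    have h2 : (Matrix.fromBlocks (A + D) B Bᴴ C) =
        Matrix.fromBlocks A B Bᴴ C + Matrix.fromBlocks D 0 0 0 := by
      rw [Matrix.fromBlocks_add]; simp
    rw [h2]
    exact hP.add hDB
  set M : Matrix (e ⊕ e) (e ⊕ e) ℂ := Matrix.fromBlocks (A + D) B Bᴴ C with hMdef
  set K : Matrix (e ⊕ e) (e ⊕ e) ℂ := Matrix.fromBlocks (2 : Matrix e e ℂ) 0 0 1 with hKdef
  obtain ⟨V, l, hV, hl, hMV⟩ := exists_spec hM
  have hdgV : ∀ j, dg M V j = l j := by
    intro j
    rw [hMV, dg_spec, hV.left, Finset.sum_eq_single j]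
    · simp
    · intro b _ hb
      simp [Matrix.one_apply_ne hb.symm]
    · simp
  have hSM : vnEntropy M = ∑ j, Real.negMulLog (l j) := by
    rw [hMV, vnEntropy_spec hV hl]
  -- the right hand side at level ε
  have hR : ∀ ε : ℝ, 0 < ε →
      vnEntropy (Matrix.fromBlocks ((A + (ε : ℂ) • 1) + (D + (ε : ℂ) • 1)) B Bᴴ
        (C + (ε : ℂ) • 1)) ≤ ∑ j, Real.negMulLog (l j + ε * dg K V j) := by
    intro ε hε
    have hεc : (0 : ℂ) ≤ (ε : ℂ) := by exact_mod_cast hε.le
    have hMe : Matrix.fromBlocks ((A + (ε : ℂ) • 1) + (D + (ε : ℂ) • 1)) B Bᴴ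
        (C + (ε : ℂ) • 1) = M + (ε : ℂ) • K := by
      rw [hMdef, hKdef, Matrix.fromBlocks_smul, Matrix.fromBlocks_add]
      congr 1
      · have : (2 : Matrix e e ℂ) = 1 + 1 := by norm_num
        rw [this, smul_add]
        abel
      · simp
      · simp
    have hK : K.PosSemidef := by
      have hK1 : K = 1 + Matrix.fromBlocks (1 : Matrix e e ℂ) 0 0 0 := by
        rw [hKdef, ← Matrix.fromBlocks_one, Matrix.fromBlocks_add]
        congr 1
        · norm_num
        · simp
        · simp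
        · simp
      rw [hK1]
      exact PosSemidef.one.add (posSemidef_fromBlocks_zero PosSemidef.one)
    rw [hMe]
    refine (vnEntropy_le_dg (hM.add (hK.smul hεc)) hV).trans (le_of_eq ?_)
    refine Finset.sum_congr rfl fun j _ => ?_
    rw [dg_add, dg_smul, hdgV]
  have hRlim : Tendsto (fun ε : ℝ => ∑ j, Real.negMulLog (l j + ε * dg K V j)) (𝓝[>] 0)
      (𝓝 (vnEntropy M)) := by
    have hcont : Continuous (fun ε : ℝ => ∑ j, Real.negMulLog (l j + ε * dg K V j)) := by
      refine continuous_finsetSum _ fun i _ => ?_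
      exact Real.continuous_negMulLog.comp (by fun_prop)
    have := (hcont.tendsto 0).mono_left (nhdsWithin_le_nhds (s := Set.Ioi (0 : ℝ)))
    simpa [hSM] using this
  -- traces
  have htr : ∀ (X : Matrix e e ℂ) (ε : ℝ), (X + (ε : ℂ) • (1 : Matrix e e ℂ)).trace.re =
      X.trace.re + ε * Fintype.card e := by
    intro X ε
    rw [Matrix.trace_add, Matrix.trace_smul, Matrix.trace_one, Complex.add_re, smul_eq_mul,
      Complex.mul_re]
    simp
  have hcard : (0 : ℝ) < Fintype.card e := by exact_mod_cast Fintype.card_pos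
  -- the inequality at level ε
  have hL : ∀ ε : ℝ, 0 < ε →
      vnEntropy (A + (ε : ℂ) • 1) + vnEntropy (C + (ε : ℂ) • 1) + vnEntropy (D + (ε : ℂ) • 1) +
      (ent2 ((A.trace.re + ε * Fintype.card e) + (C.trace.re + ε * Fintype.card e) +
          (D.trace.re + ε * Fintype.card e))
          ((C.trace.re + ε * Fintype.card e) * (D.trace.re + ε * Fintype.card e)) -
        Real.negMulLog (A.trace.re + ε * Fintype.card e) -
        Real.negMulLog (C.trace.re + ε * Fintype.card e) -
        Real.negMulLog (D.trace.re + ε * Fintype.card e)) ≤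
      ∑ j, Real.negMulLog (l j + ε * dg K V j) := by
    intro ε hε
    have hεc : (0 : ℂ) < (ε : ℂ) := by exact_mod_cast hε
    have hone : ((ε : ℂ) • (1 : Matrix e e ℂ)).PosDef := PosDef.one.smul hεc
    have hone' : ((ε : ℂ) • (1 : Matrix (e ⊕ e) (e ⊕ e) ℂ)).PosSemidef :=
      (PosDef.one.smul hεc).posSemidef
    have hPe : (Matrix.fromBlocks (A + (ε : ℂ) • 1) B Bᴴ (C + (ε : ℂ) • 1)).PosSemidef := by
      have h2 : Matrix.fromBlocks (A + (ε : ℂ) • 1) B Bᴴ (C + (ε : ℂ) • 1) =
          Matrix.fromBlocks A B Bᴴ C + (ε : ℂ) • (1 : Matrix (e ⊕ e) (e ⊕ e) ℂ) := by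
        rw [← Matrix.fromBlocks_one, Matrix.fromBlocks_smul, Matrix.fromBlocks_add]
        simp
      rw [h2]
      exact hP.add hone'
    have hCtr : 0 ≤ C.trace.re := (Complex.le_def.1 hC.trace_nonneg).1
    have hDtr : 0 ≤ D.trace.re := (Complex.le_def.1 hD.trace_nonneg).1
    have h5 := threePath_posDef hdiag' (A := A + (ε : ℂ) • 1) (B := B) (C := C + (ε : ℂ) • 1)
      (D := D + (ε : ℂ) • 1) (hone.posSemidef_add hA) hPe (hD.add hone.posSemidef)
      (by rw [htr]; positivity) (by rw [htr]; positivity)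
    rw [htr, htr, htr] at h5
    exact h5.trans (hR ε hε)
  have hscal : Continuous (fun ε : ℝ =>
      (ent2 ((A.trace.re + ε * Fintype.card e) + (C.trace.re + ε * Fintype.card e) +
          (D.trace.re + ε * Fintype.card e))
          ((C.trace.re + ε * Fintype.card e) * (D.trace.re + ε * Fintype.card e)) -
        Real.negMulLog (A.trace.re + ε * Fintype.card e) -
        Real.negMulLog (C.trace.re + ε * Fintype.card e) -
        Real.negMulLog (D.trace.re + ε * Fintype.card e))) := by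
    refine Continuous.sub (Continuous.sub (Continuous.sub ?_ ?_) ?_) ?_
    · have h6 : Continuous (fun ε : ℝ =>
          (((A.trace.re + ε * Fintype.card e) + (C.trace.re + ε * Fintype.card e) +
            (D.trace.re + ε * Fintype.card e),
          (C.trace.re + ε * Fintype.card e) * (D.trace.re + ε * Fintype.card e)) : ℝ × ℝ)) := by
        fun_prop
      exact continuous_ent2'.comp h6
    · exact Real.continuous_negMulLog.comp (by fun_prop)
    · exact Real.continuous_negMulLog.comp (by fun_prop)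
    · exact Real.continuous_negMulLog.comp (by fun_prop)
  have hscal' := (hscal.tendsto 0).mono_left (nhdsWithin_le_nhds (s := Set.Ioi (0 : ℝ)))
  have hLlim := (((tendsto_vnEntropy_add_smul_one hA).add
    (tendsto_vnEntropy_add_smul_one hC)).add (tendsto_vnEntropy_add_smul_one hD)).add hscal'
  have hfin := le_of_tendsto_of_tendsto hLlim hRlim
    (by filter_upwards [self_mem_nhdsWithin] with ε hε using hL ε hε)
  simpa using hfin

end Crest.Agent.R341
end

-- ▼ part R341/KeyGADA
section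

/-! Row 341, task T6a: the key inequality for GAD, interior parameters, from the 3-path inequality. -/

set_option autoImplicit false

namespace Crest.Agent.R341

open Matrix Crest.Quantum
open scoped ComplexOrder

/-- the 3-path inequality as a hypothesis -/
def ThreePath (e : Type*) [Fintype e] [DecidableEq e] : Prop :=
  ∀ A B C D : Matrix e e ℂ, (Matrix.fromBlocks A B Bᴴ C).PosSemidef → D.PosSemidef →
    vnEntropy A + vnEntropy C + vnEntropy D +
      (ent2 (A.trace.re + C.trace.re + D.trace.re) (C.trace.re * D.trace.re) -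
        Real.negMulLog A.trace.re - Real.negMulLog C.trace.re - Real.negMulLog D.trace.re) ≤
    vnEntropy (Matrix.fromBlocks (A + D) B Bᴴ C)

lemma ent2_smul {θ : ℝ} (hθ : 0 ≤ θ) (t v : ℝ) :
    ent2 (θ * t) (θ ^ 2 * v) = θ * ent2 t v + Real.negMulLog θ * t := by
  have h1 : Real.sqrt ((θ * t) ^ 2 - 4 * (θ ^ 2 * v)) = θ * Real.sqrt (t ^ 2 - 4 * v) := by
    rw [show (θ * t) ^ 2 - 4 * (θ ^ 2 * v) = θ ^ 2 * (t ^ 2 - 4 * v) by ring,
      Real.sqrt_mul (sq_nonneg θ), Real.sqrt_sq hθ]
  rw [ent2, h1, ent2, show (θ * t + θ * Real.sqrt (t ^ 2 - 4 * v)) / 2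
      = θ * ((t + Real.sqrt (t ^ 2 - 4 * v)) / 2) by ring,
    show (θ * t - θ * Real.sqrt (t ^ 2 - 4 * v)) / 2
      = θ * ((t - Real.sqrt (t ^ 2 - 4 * v)) / 2) by ring,
    Real.negMulLog_mul, Real.negMulLog_mul]
  ring

variable {e : Type*} [Fintype e] [DecidableEq e]

lemma fromBlocks_PSD_left {A B C : Matrix e e ℂ} (hP : (Matrix.fromBlocks A B Bᴴ C).PosSemidef) :
    A.PosSemidef := by
  have := hP.submatrix (Sum.inl : e → e ⊕ e)
  convert this using 1
  ext i j; simp

lemma fromBlocks_PSD_right {A B C : Matrix e e ℂ} (hP : (Matrix.fromBlocks A B Bᴴ C).PosSemidef) :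
    C.PosSemidef := by
  have := hP.submatrix (Sum.inr : e → e ⊕ e)
  convert this using 1
  ext i j; simp

lemma trace_fromBlocks (A B C D : Matrix e e ℂ) :
    (Matrix.fromBlocks A B C D).trace = A.trace + D.trace := by
  simp [Matrix.trace]

lemma fromBlocks_swap_PSD {A B C : Matrix e e ℂ} (hP : (Matrix.fromBlocks A B Bᴴ C).PosSemidef) :
    (Matrix.fromBlocks C Bᴴ (Bᴴ)ᴴ A).PosSemidef := by
  have := hP.submatrix (Sum.swap : e ⊕ e → e ⊕ e)
  rw [Matrix.fromBlocks_submatrix_sum_swap_sum_swap] at this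
  rwa [Matrix.conjTranspose_conjTranspose]

lemma fromBlocks_add_left {A B C D : Matrix e e ℂ} (hP : (Matrix.fromBlocks A B Bᴴ C).PosSemidef)
    (hD : D.PosSemidef) : (Matrix.fromBlocks (A + D) B Bᴴ C).PosSemidef := by
  have h1 : (Matrix.fromBlocks D (0 : Matrix e e ℂ) 0 0).PosSemidef := by
    have h2 := hD.conjTranspose_mul_mul_same (Matrix.fromCols (1 : Matrix e e ℂ) (0 : Matrix e e ℂ))
    convert h2 using 1
    ext i j
    rcases i with i | i <;> rcases j with j | j <;>
      simp [Matrix.mul_apply, Matrix.one_apply, Matrix.fromBlocks]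
  have h3 := hP.add h1
  rw [Matrix.fromBlocks_add] at h3
  simpa using h3

/-- scaling the two blocks of a PSD block matrix by `α, k ≥ 0` and the coherence by `σ`,
`σ^2 = α k`. -/
lemma fromBlocks_scale {A B C : Matrix e e ℂ} (hP : (Matrix.fromBlocks A B Bᴴ C).PosSemidef)
    {α k σ : ℝ} (hα : 0 < α) (hk : σ ^ 2 = α * k) :
    (Matrix.fromBlocks ((α : ℂ) • A) ((σ : ℂ) • B) ((σ : ℂ) • B)ᴴ ((k : ℂ) • C)).PosSemidef := by
  -- conjugate with `diag(√α, σ/√α)`
  have hs : 0 < Real.sqrt α := Real.sqrt_pos.2 hα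
  set x : ℝ := Real.sqrt α with hx
  set y : ℝ := σ / x with hy
  have hxx : x * x = α := Real.mul_self_sqrt hα.le
  have hxy : x * y = σ := by rw [hy]; field_simp
  have hyy : y * y = k := by
    rw [hy, div_mul_div_comm, hxx, ← pow_two, hk]; field_simp
  set W : Matrix (e ⊕ e) (e ⊕ e) ℂ :=
    Matrix.fromBlocks ((x : ℂ) • 1) 0 0 ((y : ℂ) • 1) with hW
  have h := hP.mul_mul_conjTranspose_same W
  convert h using 1
  rw [hW, Matrix.fromBlocks_conjTranspose, Matrix.fromBlocks_multiply, Matrix.fromBlocks_multiply]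
  congr 1
  · ext i j; simp [← hxx]; ring
  · ext i j; simp [← hxy]; ring
  · ext i j; simp [← hxy]; ring
  · ext i j; simp [← hyy]; ring

/-- interior parameters -/
theorem gadKey_interior_of (h3 : ThreePath e) {γ ν : ℝ} (hγ : γ ∈ Set.Ioo (0 : ℝ) 1)
    (hν : ν ∈ Set.Ioo (0 : ℝ) 1)
    {A B C : Matrix e e ℂ} (hP : (Matrix.fromBlocks A B Bᴴ C).PosSemidef)
    (ha : 0 < A.trace.re) (hc : 0 < C.trace.re) :
    vnEntropy A + vnEntropy C + (ent2 (A.trace.re + C.trace.re) (vdet γ ν A.trace.re C.trace.re) -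
        Real.negMulLog A.trace.re - Real.negMulLog C.trace.re) ≤
      vnEntropy (gadBlk γ ν A B C) := by
  obtain ⟨hγ0, hγ1⟩ := hγ
  obtain ⟨hν0, hν1⟩ := hν
  have hA := fromBlocks_PSD_left hP
  have hC := fromBlocks_PSD_right hP
  set a := A.trace.re with ha_def
  set c := C.trace.re with hc_def
  set s := Real.sqrt (1 - γ) with hs_def
  have hs0 : 0 < s := Real.sqrt_pos.2 (by linarith)
  have hs2 : s * s = 1 - γ := Real.mul_self_sqrt (by linarith)
  set n0 := (1 - γ * ν) * a + γ * (1 - ν) * c with hn0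
  set n1 := γ * ν * a + (1 - γ + γ * ν) * c with hn1
  have hγν : 0 < γ * ν := mul_pos hγ0 hν0
  have hγν' : 0 < γ * (1 - ν) := mul_pos hγ0 (by linarith)
  have h1γν : 0 < 1 - γ * ν := by nlinarith
  have hn0pos : 0 < n0 := by positivity
  have h1γ' : 0 < 1 - γ + γ * ν := by nlinarith
  have hn1pos : 0 < n1 := by positivity
  set v := vdet γ ν a c with hv
  have hvdef : v = n0 * n1 - (1 - γ) * a * c := by rw [hv, vdet, hn0, hn1]
  have hveq : v = γ * ν * a * n0 + γ * (1 - ν) * c * n1 := by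
    rw [hvdef, hn0, hn1]; ring
  have hvpos : 0 < v := by rw [hveq]; positivity
  set θ := γ * (1 - ν) * c * n1 / v with hθ
  have hθpos : 0 < θ := by positivity
  have hθ' : 1 - θ = γ * ν * a * n0 / v := by
    rw [hθ, eq_div_iff hvpos.ne', sub_mul, div_mul_cancel₀ _ hvpos.ne', hveq]; ring
  have hθ'pos : 0 < 1 - θ := by rw [hθ']; positivity
  have hθ1 : θ < 1 := by linarith
  have hθv : θ * v = γ * (1 - ν) * c * n1 := by rw [hθ, div_mul_cancel₀ _ hvpos.ne']
  have hθv' : (1 - θ) * v = γ * ν * a * n0 := by rw [hθ', div_mul_cancel₀ _ hvpos.ne']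
  set k1 := θ * n1 / c with hk1
  set α1 := θ * (1 - γ) * c / n1 with hα1
  set α2 := (1 - θ) * n0 / a with hα2
  set k2 := (1 - θ) * (1 - γ) * a / n0 with hk2
  have hk1pos : 0 < k1 := by positivity
  have h1γ : 0 < 1 - γ := by linarith
  have hα1pos : 0 < α1 := by positivity
  have hα2pos : 0 < α2 := by positivity
  have hk2pos : 0 < k2 := by positivity
  have hsum0 : α1 + α2 = 1 - γ * ν := by
    rw [hα1, hα2, hθ, hθ', hveq]
    have : 0 < γ * ν * a * n0 + γ * (1 - ν) * c * n1 := by rw [← hveq]; exact hvpos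
    field_simp
    rw [hn0, hn1]
    ring
  have hsum1 : k1 + k2 = 1 - γ + γ * ν := by
    rw [hk1, hk2, hθ, hθ', hveq]
    have : 0 < γ * ν * a * n0 + γ * (1 - ν) * c * n1 := by rw [← hveq]; exact hvpos
    field_simp
    rw [hn0, hn1]
    ring
  -- scalar identities
  have hβc : γ * (1 - ν) * c = θ * v / n1 := by rw [hθv]; field_simp
  have hβa : γ * ν * a = (1 - θ) * v / n0 := by rw [hθv']; field_simp
  have ht1 : α1 * a + k1 * c + γ * (1 - ν) * c = θ * (a + c) := by
    rw [hβc, hvdef, hα1, hk1]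
    have : a + c = n0 + n1 := by rw [hn0, hn1]; ring
    rw [this]
    field_simp
    ring
  have ht2 : k2 * c + α2 * a + γ * ν * a = (1 - θ) * (a + c) := by
    rw [hβa, hvdef, hα2, hk2]
    have : a + c = n0 + n1 := by rw [hn0, hn1]; ring
    rw [this]
    field_simp
    ring
  have hd1 : k1 * c * (γ * (1 - ν) * c) = θ ^ 2 * v := by
    rw [hβc, hk1]; field_simp
  have hd2 : α2 * a * (γ * ν * a) = (1 - θ) ^ 2 * v := by
    rw [hβa, hα2]; field_simp
  have hσ1 : (θ * s) ^ 2 = α1 * k1 := by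
    rw [hα1, hk1, mul_pow, pow_two s, hs2]; field_simp
  have hσ2 : ((1 - θ) * s) ^ 2 = α2 * k2 := by
    rw [hα2, hk2, mul_pow, pow_two s, hs2]; field_simp
  set β : ℝ := γ * (1 - ν) with hβ
  set β' : ℝ := γ * ν with hβ'
  have hPSDs : ∀ (r : ℝ) (X : Matrix e e ℂ), 0 < r → X.PosSemidef → ((r : ℂ) • X).PosSemidef := by
    intro r X hr hX
    exact hX.smul (by exact_mod_cast hr.le)
  have htr : ∀ (r : ℝ) (X : Matrix e e ℂ), ((r : ℂ) • X).trace.re = r * X.trace.re := by
    intro r X
    simp [Matrix.trace_smul]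
  have hP1 := fromBlocks_scale hP hα1pos hσ1
  have hP2 := fromBlocks_scale hP hα2pos hσ2
  have hP2' := fromBlocks_swap_PSD hP2
  have hD1 := hPSDs β C hγν' hC
  have hD2 := hPSDs β' A hγν hA
  have key1 := h3 _ _ _ _ hP1 hD1
  have key2 := h3 _ _ _ _ hP2' hD2
  have hM1 := fromBlocks_add_left hP1 hD1
  have hM2 := fromBlocks_add_left hP2' hD2
  have hsplit : gadBlk γ ν A B C =
      Matrix.fromBlocks ((α1 : ℂ) • A + (β : ℂ) • C) (((θ * s : ℝ) : ℂ) • B)
        (((θ * s : ℝ) : ℂ) • B)ᴴ ((k1 : ℂ) • C) +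
      (Matrix.fromBlocks ((k2 : ℂ) • C + (β' : ℂ) • A) ((((1 - θ) * s : ℝ) : ℂ) • B)ᴴ
        (((((1 - θ) * s : ℝ) : ℂ) • B)ᴴ)ᴴ ((α2 : ℂ) • A)).submatrix (Equiv.sumComm e e)
          (Equiv.sumComm e e) := by
    rw [gadBlk, show ((Equiv.sumComm e e : e ⊕ e ≃ e ⊕ e) : e ⊕ e → e ⊕ e) = Sum.swap from rfl,
      Matrix.fromBlocks_submatrix_sum_swap_sum_swap, Matrix.fromBlocks_add]
    congr 1
    · rw [show γ * (1 - ν) = β from rfl, show γ * ν = β' from rfl, ← hsum0]
      ext i j; simp; ring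
    · ext i j; simp [← hs_def]; ring
    · ext i j; simp [← hs_def]; ring
    · rw [show γ * ν = β' from rfl, ← hsum1]
      ext i j; simp; ring
  rw [hsplit]
  have hM2' := hM2.submatrix (Equiv.sumComm e e)
  have hadd := vnEntropy_add_ge hM1 hM2' hθpos hθ1
  rw [vnEntropy_submatrix hM2] at hadd
  refine le_trans ?_ hadd
  have htM1 : (Matrix.fromBlocks ((α1 : ℂ) • A + (β : ℂ) • C) (((θ * s : ℝ) : ℂ) • B)
        (((θ * s : ℝ) : ℂ) • B)ᴴ ((k1 : ℂ) • C)).trace.re = θ * (a + c) := by
    rw [trace_fromBlocks, Matrix.trace_add, Complex.add_re, Complex.add_re, htr, htr, htr,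
      ← ht1]
    ring
  have htM2 : ((Matrix.fromBlocks ((k2 : ℂ) • C + (β' : ℂ) • A) ((((1 - θ) * s : ℝ) : ℂ) • B)ᴴ
        (((((1 - θ) * s : ℝ) : ℂ) • B)ᴴ)ᴴ ((α2 : ℂ) • A)).submatrix (Equiv.sumComm e e)
          (Equiv.sumComm e e)).trace.re = (1 - θ) * (a + c) := by
    rw [show ((Equiv.sumComm e e : e ⊕ e ≃ e ⊕ e) : e ⊕ e → e ⊕ e) = Sum.swap from rfl,
      Matrix.fromBlocks_submatrix_sum_swap_sum_swap,
      trace_fromBlocks, Matrix.trace_add, Complex.add_re, Complex.add_re, htr, htr, htr,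
      ← ht2]
    ring
  rw [htM1, htM2]
  clear_value β β'
  rw [htr, htr, htr, ← ha_def, ← hc_def, vnEntropy_smul hA hα1pos.le, vnEntropy_smul hC hk1pos.le,
    vnEntropy_smul hC hγν'.le, ← ha_def, ← hc_def, ht1, hd1, ent2_smul hθpos.le,
    Real.negMulLog_mul, Real.negMulLog_mul, Real.negMulLog_mul] at key1
  rw [htr, htr, htr, ← ha_def, ← hc_def, vnEntropy_smul hA hα2pos.le, vnEntropy_smul hC hk2pos.le,
    vnEntropy_smul hA hγν.le, ← ha_def, ← hc_def, ht2, hd2, ent2_smul hθ'pos.le,
    Real.negMulLog_mul, Real.negMulLog_mul, Real.negMulLog_mul] at key2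
  have e1 : Real.negMulLog θ = - θ * Real.log θ := rfl
  have e2 : Real.negMulLog (1 - θ) = - (1 - θ) * Real.log (1 - θ) := rfl
  rw [e1] at key1
  rw [e2] at key2
  have hsum1' : k1 + k2 = 1 - β := by
    have : 1 - γ + γ * ν = 1 - β := by rw [hβ]; ring
    rw [← this, ← hβ', ← hsum1]
  linear_combination key1 + key2 - (vnEntropy A - Real.negMulLog a) * hsum0 -
    (vnEntropy C - Real.negMulLog c) * hsum1'

end Crest.Agent.R341
end

-- ▼ part R341/KeyGAD2
section

/-! Row 341, task T6b: closure of the key inequality and the form `KeyIneq`. -/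

set_option autoImplicit false

namespace Crest.Agent.R341

open Matrix Crest.Quantum Filter Topology
open scoped ComplexOrder

/-- interior form (T6a), as a hypothesis -/
def GadKeyInt : Prop :=
  ∀ (e : Type) [Fintype e] [DecidableEq e] (γ ν : ℝ), γ ∈ Set.Ioo (0 : ℝ) 1 →
    ν ∈ Set.Ioo (0 : ℝ) 1 → ∀ (A B C : Matrix e e ℂ),
    (Matrix.fromBlocks A B Bᴴ C).PosSemidef → 0 < A.trace.re → 0 < C.trace.re →
    vnEntropy A + vnEntropy C + (ent2 (A.trace.re + C.trace.re) (vdet γ ν A.trace.re C.trace.re) -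
        Real.negMulLog A.trace.re - Real.negMulLog C.trace.re) ≤
      vnEntropy (gadBlk γ ν A B C)

/-- continuity of the entropy (T3), as a hypothesis -/
def VnCont : Prop :=
  ∀ (n : Type) [Fintype n] [DecidableEq n] (l : Filter ℝ) (A : ℝ → Matrix n n ℂ)
    (A₀ : Matrix n n ℂ), (∀ i, (A i).IsHermitian) → A₀.IsHermitian → Tendsto A l (𝓝 A₀) →
    Tendsto (fun i => vnEntropy (A i)) l (𝓝 (vnEntropy A₀))

lemma ent2_one_eq (d : ℝ) : ent2 1 d = Real.binEntropy ((1 + Real.sqrt (1 - 4 * d)) / 2) := by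
  unfold ent2
  rw [Real.binEntropy_eq_negMulLog_add_negMulLog_one_sub]
  have h1 : (1 : ℝ) ^ 2 - 4 * d = 1 - 4 * d := by ring
  rw [h1]
  congr 2
  ring

lemma continuous_ent2_kg2 : Continuous (fun x : ℝ × ℝ => ent2 x.1 x.2) := by
  unfold ent2
  have h := Real.continuous_negMulLog
  fun_prop

lemma gadBlk_isHermitian {e : Type*} (γ ν : ℝ) {A B C : Matrix e e ℂ}
    (hA : A.IsHermitian) (hC : C.IsHermitian) : (gadBlk γ ν A B C).IsHermitian := by
  unfold gadBlk Matrix.IsHermitian
  rw [Matrix.fromBlocks_conjTranspose]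
  have hs : ∀ (c : ℝ) (M : Matrix e e ℂ), (((c : ℝ) : ℂ) • M)ᴴ = ((c : ℝ) : ℂ) • Mᴴ := by
    intro c M
    rw [Matrix.conjTranspose_smul]
    simp
  rw [Matrix.conjTranspose_add, Matrix.conjTranspose_add, hs, hs, hs, hs, hs, hs, hA.eq, hC.eq,
    Matrix.conjTranspose_conjTranspose]

lemma gadBlk_eq {e : Type*} (γ ν : ℝ) (A B C : Matrix e e ℂ) :
    gadBlk γ ν A B C = gadBlocks γ ν A B Bᴴ C := rfl

/-- the key inequality `(*)` for all parameters, by continuity -/
theorem gadKey_of (hI : GadKeyInt) (hV : VnCont) {e : Type} [Fintype e] [DecidableEq e]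
    {γ ν : ℝ} (hγ : γ ∈ Set.Icc (0 : ℝ) 1) (hν : ν ∈ Set.Icc (0 : ℝ) 1)
    {A B C : Matrix e e ℂ} (hP : (Matrix.fromBlocks A B Bᴴ C).PosSemidef) :
    vnEntropy A + vnEntropy C + (ent2 (A.trace.re + C.trace.re) (vdet γ ν A.trace.re C.trace.re) -
        Real.negMulLog A.trace.re - Real.negMulLog C.trace.re) ≤
      vnEntropy (gadBlk γ ν A B C) := by
  classical
  have hA : A.PosSemidef := by
    have := hP.submatrix (Sum.inl : e → e ⊕ e)
    convert this using 1
    ext i j; simp
  have hC : C.PosSemidef := by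
    have := hP.submatrix (Sum.inr : e → e ⊕ e)
    convert this using 1
    ext i j; simp
  rcases isEmpty_or_nonempty e with he | he
  · have h1 : ∀ M : Matrix e e ℂ, vnEntropy M = 0 := by
      intro M
      unfold vnEntropy
      split_ifs <;> simp
    have h2 : ∀ M : Matrix (e ⊕ e) (e ⊕ e) ℂ, vnEntropy M = 0 := by
      intro M
      unfold vnEntropy
      split_ifs <;> simp
    have h3 : ∀ M : Matrix e e ℂ, M.trace = 0 := by
      intro M; simp [Matrix.trace]
    rw [h1, h1, h2, h3, h3]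
    simp [ent2, vdet]
  -- perturbation
  set G : ℝ → ℝ := fun t => γ + t * (1 / 2 - γ) with hG
  set N : ℝ → ℝ := fun t => ν + t * (1 / 2 - ν) with hN
  set A' : ℝ → Matrix e e ℂ := fun t => A + ((t : ℝ) : ℂ) • 1 with hA'
  set C' : ℝ → Matrix e e ℂ := fun t => C + ((t : ℝ) : ℂ) • 1 with hC'
  have hherm : ∀ t : ℝ, (((t : ℝ) : ℂ) • (1 : Matrix e e ℂ)).IsHermitian := by
    intro t
    unfold Matrix.IsHermitian
    rw [Matrix.conjTranspose_smul]; simp
  have hA'h : ∀ t, (A' t).IsHermitian := fun t => hA.1.add (hherm t)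
  have hC'h : ∀ t, (C' t).IsHermitian := fun t => hC.1.add (hherm t)
  have hGc : Continuous G := by simp only [hG]; fun_prop
  have hNc : Continuous N := by simp only [hN]; fun_prop
  have hofc : Continuous (fun t : ℝ => ((t : ℝ) : ℂ)) := Complex.continuous_ofReal
  have hA'c : Continuous A' := by simp only [hA']; fun_prop
  have hC'c : Continuous C' := by simp only [hC']; fun_prop
  have hG0 : G 0 = γ := by simp [hG]
  have hN0 : N 0 = ν := by simp [hN]
  have hA0 : A' 0 = A := by simp [hA']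
  have hC0 : C' 0 = C := by simp [hC']
  have htrA : Continuous (fun t => (A' t).trace.re) :=
    Complex.continuous_re.comp (hA'c.matrix_trace)
  have htrC : Continuous (fun t => (C' t).trace.re) :=
    Complex.continuous_re.comp (hC'c.matrix_trace)
  have hlim : ∀ {X : Type} [TopologicalSpace X] (f : ℝ → X), Continuous f →
      Tendsto f (𝓝[>] (0 : ℝ)) (𝓝 (f 0)) := by
    intro X _ f hf
    exact (hf.tendsto 0).mono_left nhdsWithin_le_nhds
  have hpos : ∀ᶠ t in 𝓝[>] (0 : ℝ), t ∈ Set.Ioo (0 : ℝ) 1 :=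
    Ioo_mem_nhdsGT one_pos
  have hcard : (0 : ℝ) < Fintype.card e := by
    have := Fintype.card_pos (α := e)
    exact_mod_cast this
  have htr : ∀ (M : Matrix e e ℂ) (t : ℝ), (M + ((t : ℝ) : ℂ) • (1 : Matrix e e ℂ)).trace.re
      = M.trace.re + t * Fintype.card e := by
    intro M t
    rw [Matrix.trace_add, Matrix.trace_smul, Matrix.trace_one, Complex.add_re]
    simp
  -- entropy limits
  have hL1 : Tendsto (fun t => vnEntropy (A' t)) (𝓝[>] (0 : ℝ)) (𝓝 (vnEntropy A)) :=
    hV e _ A' A hA'h hA.1 (by have := hlim A' hA'c; rwa [hA0] at this)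
  have hL2 : Tendsto (fun t => vnEntropy (C' t)) (𝓝[>] (0 : ℝ)) (𝓝 (vnEntropy C)) :=
    hV e _ C' C hC'h hC.1 (by have := hlim C' hC'c; rwa [hC0] at this)
  have hBc : Continuous (fun t => gadBlk (G t) (N t) (A' t) B (C' t)) := by
    unfold gadBlk
    have h1 : Continuous fun t => (((1 - G t * N t : ℝ) : ℂ) • A' t + ((G t * (1 - N t) : ℝ) : ℂ) • C' t) := by
      fun_prop
    have h2 : Continuous fun t => (((G t * N t : ℝ) : ℂ) • A' t + ((1 - G t + G t * N t : ℝ) : ℂ) • C' t) := by
      fun_prop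
    have h3 : Continuous fun t => (((Real.sqrt (1 - G t) : ℝ) : ℂ) • B) := by
      fun_prop
    have h4 : Continuous fun t => (((Real.sqrt (1 - G t) : ℝ) : ℂ) • Bᴴ) := by
      fun_prop
    exact Continuous.matrix_fromBlocks h1 h3 h4 h2
  have hL3 : Tendsto (fun t => vnEntropy (gadBlk (G t) (N t) (A' t) B (C' t))) (𝓝[>] (0 : ℝ))
      (𝓝 (vnEntropy (gadBlk γ ν A B C))) :=
    hV (e ⊕ e) _ _ _ (fun t => gadBlk_isHermitian _ _ (hA'h t) (hC'h t))
      (gadBlk_isHermitian _ _ hA.1 hC.1)
      (by have := hlim _ hBc; rwa [hG0, hN0, hA0, hC0] at this)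
  have hL4 : Tendsto (fun t => ent2 ((A' t).trace.re + (C' t).trace.re)
      (vdet (G t) (N t) (A' t).trace.re (C' t).trace.re)) (𝓝[>] (0 : ℝ))
      (𝓝 (ent2 (A.trace.re + C.trace.re) (vdet γ ν A.trace.re C.trace.re))) := by
    have hv : Continuous (fun t => vdet (G t) (N t) (A' t).trace.re (C' t).trace.re) := by
      unfold vdet
      fun_prop
    have := hlim _ (continuous_ent2_kg2.comp ((htrA.add htrC).prodMk hv))
    simp only [Function.comp_def, Pi.add_apply] at this
    rwa [hG0, hN0, hA0, hC0] at this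
  have hL5 : Tendsto (fun t => Real.negMulLog (A' t).trace.re) (𝓝[>] (0 : ℝ))
      (𝓝 (Real.negMulLog A.trace.re)) := by
    have := hlim _ (Real.continuous_negMulLog.comp htrA)
    simp only [Function.comp_def] at this
    rwa [hA0] at this
  have hL6 : Tendsto (fun t => Real.negMulLog (C' t).trace.re) (𝓝[>] (0 : ℝ))
      (𝓝 (Real.negMulLog C.trace.re)) := by
    have := hlim _ (Real.continuous_negMulLog.comp htrC)
    simp only [Function.comp_def] at this
    rwa [hC0] at this
  refine le_of_tendsto_of_tendsto ((hL1.add hL2).add ((hL4.sub hL5).sub hL6)) hL3 ?_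
  filter_upwards [hpos] with t ht
  have hGt : G t ∈ Set.Ioo (0 : ℝ) 1 := by
    simp only [hG, Set.mem_Ioo]
    obtain ⟨h0, h1⟩ := hγ
    constructor <;> nlinarith [ht.1, ht.2]
  have hNt : N t ∈ Set.Ioo (0 : ℝ) 1 := by
    simp only [hN, Set.mem_Ioo]
    obtain ⟨h0, h1⟩ := hν
    constructor <;> nlinarith [ht.1, ht.2]
  have hAtr : 0 ≤ A.trace.re := by
    have := hA.trace_nonneg
    exact (Complex.le_def.1 this).1
  have hCtr : 0 ≤ C.trace.re := by
    have := hC.trace_nonneg
    exact (Complex.le_def.1 this).1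
  refine hI e (G t) (N t) hGt hNt (A' t) B (C' t) ?_ ?_ ?_
  · have hone : (((t : ℝ) : ℂ) • (1 : Matrix (e ⊕ e) (e ⊕ e) ℂ)).PosSemidef := by
      refine Matrix.PosSemidef.one.smul ?_
      exact_mod_cast ht.1.le
    have := hP.add hone
    convert this using 1
    rw [← Matrix.fromBlocks_one, Matrix.fromBlocks_smul, Matrix.fromBlocks_add]
    simp [hA', hC']
  · rw [hA', htr]; have := mul_pos ht.1 hcard; linarith
  · rw [hC', htr]; have := mul_pos ht.1 hcard; linarith

theorem keyIneq_of (hI : GadKeyInt) (hV : VnCont) {γ ν : ℝ} (hγ : γ ∈ Set.Icc (0 : ℝ) 1)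
    (hν : ν ∈ Set.Icc (0 : ℝ) 1) : KeyIneq γ ν := by
  intro e _ _ A B C hP htr
  have h := gadKey_of hI hV hγ hν hP
  have htr' : A.trace.re + C.trace.re = 1 := by
    have := congrArg Complex.re htr
    simpa using this
  rw [gadBlk_eq, htr', ent2_one_eq] at h
  have hA : A.trace.re = 1 - C.trace.re := by linarith
  rw [hA] at h
  have hv : vdet γ ν (1 - C.trace.re) C.trace.re = vOut γ ν C.trace.re := by
    unfold vdet vOut; ring
  rw [hv] at h
  unfold fOut
  rw [Real.binEntropy_eq_negMulLog_add_negMulLog_one_sub C.trace.re]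
  linarith

end Crest.Agent.R341
end

-- ▼ part R341/ContA
section

/-! Row 341, task T3: continuity of the entropy (proved). -/

set_option autoImplicit false

namespace Crest.Agent.R341

open Matrix Crest.Quantum Filter Topology
open scoped ComplexOrder Matrix.Norms.L2Operator

variable {n : Type*} [Fintype n] [DecidableEq n]

lemma vnEntropy_eq_trace_cfc {A : Matrix n n ℂ} (h : A.IsHermitian) :
    vnEntropy A = (cfc Real.negMulLog A).trace.re := by
  rw [h.cfc_eq, Matrix.IsHermitian.cfc, Unitary.conjStarAlgAut_apply, Matrix.trace_mul_comm,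
    ← Matrix.mul_assoc, Unitary.coe_star_mul_self, Matrix.one_mul, trace_diagonal,
    vnEntropy_def h, Complex.re_sum]
  rfl

/-- the entropy is continuous on Hermitian matrices (entrywise topology) -/
theorem tendsto_vnEntropy {ι : Type*} {l : Filter ι} {A : ι → Matrix n n ℂ} {A₀ : Matrix n n ℂ}
    (hA : ∀ i, (A i).IsHermitian) (h0 : A₀.IsHermitian) (h : Tendsto A l (𝓝 A₀)) :
    Tendsto (fun i => vnEntropy (A i)) l (𝓝 (vnEntropy A₀)) := by
  cases isEmpty_or_nonempty n
  · have h1 : ∀ i, A i = A₀ := fun i => Subsingleton.elim _ _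
    simp only [h1]
    exact tendsto_const_nhds
  have hs : IsCompact (Metric.closedBall (0 : ℝ) (‖A₀‖ + 1)) := isCompact_closedBall _ _
  have hsub : ∀ B : Matrix n n ℂ, ‖B‖ ≤ ‖A₀‖ + 1 →
      spectrum ℝ B ⊆ Metric.closedBall (0 : ℝ) (‖A₀‖ + 1) := by
    intro B hB x hx
    rw [mem_closedBall_zero_iff]
    exact (spectrum.norm_le_norm_of_mem hx).trans hB
  have hev : ∀ᶠ x in l, ‖A x‖ ≤ ‖A₀‖ + 1 := by
    have := (h.norm).eventually (ge_mem_nhds (show ‖A₀‖ < ‖A₀‖ + 1 by linarith))
    exact this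
  have hc : Tendsto (fun x => cfc Real.negMulLog (A x)) l (𝓝 (cfc Real.negMulLog A₀)) :=
    Filter.Tendsto.cfc (p := IsSelfAdjoint) hs Real.negMulLog h (hev.mono fun x hx => hsub _ hx)
      (Eventually.of_forall fun x => hA x) (hsub _ (by linarith)) h0
      Real.continuous_negMulLog.continuousOn
  have ht : Continuous fun M : Matrix n n ℂ => M.trace.re :=
    Complex.continuous_re.comp (continuous_id.matrix_trace)
  have := (ht.tendsto _).comp hc
  rw [vnEntropy_eq_trace_cfc h0]
  refine this.congr fun i => ?_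
  simp only [Function.comp]
  rw [vnEntropy_eq_trace_cfc (hA i)]

end Crest.Agent.R341
end

-- ▼ part R341/KeyAll

/-! Row 341: the key inequality, assembled. -/

namespace Crest.Agent.R341

open Matrix Crest.Quantum
open scoped ComplexOrder

theorem threePath_all (e : Type) [Fintype e] [DecidableEq e] : ThreePath e := by
  intro A B C D hP hD
  exact threePath_of_diag
    (fun _ => fun a B C D ha hP hD hc hd => threePath_diag ha hP hD hc hd) hP hD

theorem gadKeyInt_all : GadKeyInt := by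
  intro e _ _ γ ν hγ hν A B C hP ha hc
  exact gadKey_interior_of (threePath_all e) hγ hν hP ha hc

theorem vnCont_all : VnCont := by
  intro n _ _ l A A₀ hA h0 h
  exact tendsto_vnEntropy hA h0 h

/-- the key inequality `(*)` -/
theorem key {γ ν : ℝ} (hγ : γ ∈ Set.Icc (0 : ℝ) 1) (hν : ν ∈ Set.Icc (0 : ℝ) 1) :
    KeyIneq γ ν :=
  keyIneq_of gadKeyInt_all vnCont_all hγ hν

end Crest.Agent.R341
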